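import Vale.Agent.P214.ODE.Kernel

/-!
# P214, block ODE: the exact ODE package for a general radial kernel in the base

`T` is the reference plane, `x = p (y - z)` (`p` the projection onto `T`) the base position,
`K' = -k/2`.  With `M = t^{-m} ∫ K`, `g = t^{2-m} ∫ K tilt`, `b = t^{-m} ∫ k |x - P x|^2`,
`H_F = t^{-m} ∫ k F`:
* `t^3 M' = b - g`                                   (inner variation),
* `t H_F' = g_F + err`, `g_F = t^{2-m} ∫ K tr (D²F P)`  (second order identity),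
* `g_F² ≤ (t^{-m} ∫ k |∇F|²) b`                      (outer variation + Cauchy-Schwarz).
The three first variation identities enter as hypotheses (`hin`, `hsec`, `hout`), see `FV`.
-/

open Set Filter Topology MeasureTheory Metric
open scoped RealInnerProductSpace

set_option linter.all false

namespace Vale.Agent.P214.ODE

open Vale.Agent.P214.FV

variable {E : Type*} [NormedAddCommGroup E] [InnerProductSpace ℝ E] [FiniteDimensional ℝ E]
  [MeasurableSpace E] [BorelSpace E]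

/-- a pair of kernels `k ≥ 0` (class `C^1`, vanishing on `[1, ∞)`, derivative `k'`) and
`K = (1/2) ∫_s^∞ k` -/
structure Kern (k k' K : ℝ → ℝ) : Prop where
  pk : Profile k k'
  pK : Profile K (fun s => -(k s) / 2)
  nonneg : ∀ s, 0 ≤ k s

namespace Kern

variable {k k' K : ℝ → ℝ}

lemma K_nonneg (h : Kern k k' K) (s : ℝ) : 0 ≤ K s := by
  -- `K` is antitone and vanishes at `max s 1`
  have hanti : Antitone K := antitone_of_deriv_nonpos
    (fun s => (h.pK.der s).differentiableAt) (fun s => by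
      rw [(h.pK.der s).deriv]; have := h.nonneg s; linarith)
  have h1 := hanti (le_max_left s 1)
  rwa [h.pK.zero _ (le_max_right s 1)] at h1

end Kern

/-- base position relative to `z` -/
noncomputable def bx (T : Submodule ℝ E) (z y : E) : E := T.starProjection (y - z)

/-- squared base distance to `z` -/
noncomputable def bsq (T : Submodule ℝ E) (z y : E) : ℝ := ‖bx T z y‖ ^ 2

/-- tilt `tr (q P)` with respect to `T` -/
noncomputable def tilt (T : Submodule ℝ E) (P : E → E →L[ℝ] E) (y : E) : ℝ :=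
  tr (P y) - tr (T.starProjection.comp (P y))

/-- radial normal energy `|x - P x|^2` -/
noncomputable def rad (T : Submodule ℝ E) (P : E → E →L[ℝ] E) (z y : E) : ℝ :=
  ‖bx T z y - P y (bx T z y)‖ ^ 2

lemma bsq_nonneg (T : Submodule ℝ E) (z y : E) : 0 ≤ bsq T z y := sq_nonneg _

lemma continuous_bx (T : Submodule ℝ E) (z : E) : Continuous (bx T z) := by
  unfold bx; fun_prop

lemma continuous_bsq (T : Submodule ℝ E) (z : E) : Continuous (bsq T z) := by
  unfold bsq; exact (continuous_bx T z).norm.pow 2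

variable {T : Submodule ℝ E} {ν : Measure E} {P : E → E →L[ℝ] E} {z : E} {m : ℕ}
  {k k' K : ℝ → ℝ}

lemma aesm_tr (hP : AEStronglyMeasurable P ν) (A : E →L[ℝ] E) :
    AEStronglyMeasurable (fun y => tr (A.comp (P y))) ν := by
  refine continuous_tr.comp_aestronglyMeasurable ?_
  have : Continuous fun p : E →L[ℝ] E => A.comp p := by fun_prop
  exact this.comp_aestronglyMeasurable hP

lemma aesm_tilt (hP : AEStronglyMeasurable P ν) : AEStronglyMeasurable (tilt T P) ν :=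
  (continuous_tr.comp_aestronglyMeasurable hP).sub (aesm_tr hP _)

lemma aesm_rad (hP : AEStronglyMeasurable P ν) : AEStronglyMeasurable (rad T P z) ν := by
  unfold rad
  have h1 : AEStronglyMeasurable (bx T z) ν := (continuous_bx T z).aestronglyMeasurable
  exact ((h1.sub (aesm_clm_apply hP h1)).norm.pow 2)

/-- pointwise facts at a point where `P` is an orthogonal projection -/
lemma inner_proj_self {S : Submodule ℝ E} (x : E) :
    ⟪x, S.starProjection x⟫ = ‖x‖ ^ 2 - ‖x - S.starProjection x‖ ^ 2 := by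
  have h1 : ⟪S.starProjection x, x - S.starProjection x⟫ = 0 :=
    Submodule.inner_right_of_mem_orthogonal (S.starProjection_apply_mem x)
      (Submodule.sub_starProjection_mem_orthogonal x)
  have h2 : ⟪x, S.starProjection x⟫ = ‖S.starProjection x‖ ^ 2 := by
    rw [inner_sub_right, real_inner_self_eq_norm_sq] at h1
    rw [real_inner_comm]; linarith
  have h3 : ‖x‖ ^ 2 = ‖S.starProjection x‖ ^ 2 + ‖x - S.starProjection x‖ ^ 2 := by
    have h4 := norm_add_sq_real (S.starProjection x) (x - S.starProjection x)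
    rw [h1] at h4
    simp only [add_sub_cancel] at h4
    linarith
  linarith

lemma proj_norm_le {S : Submodule ℝ E} (x : E) : ‖x - S.starProjection x‖ ≤ ‖x‖ := by
  have h1 := inner_proj_self (S := S) x
  have h2 : 0 ≤ ⟪x, S.starProjection x⟫ := by
    have h3 : ⟪S.starProjection x, x - S.starProjection x⟫ = 0 :=
      Submodule.inner_right_of_mem_orthogonal (S.starProjection_apply_mem x)
        (Submodule.sub_starProjection_mem_orthogonal x)
    rw [inner_sub_right, real_inner_self_eq_norm_sq] at h3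
    rw [real_inner_comm]
    nlinarith [sq_nonneg ‖S.starProjection x‖]
  exact le_of_sq_le_sq (by linarith) (norm_nonneg _) |> fun h => h

/-- `M(t) = t^{-m} ∫ K(|x|²/t²) dν` -/
noncomputable def massK (m : ℕ) (T : Submodule ℝ E) (z : E) (K : ℝ → ℝ) (ν : Measure E)
    (t : ℝ) : ℝ := t ^ (-(m : ℤ)) * ∫ y, K (bsq T z y / t ^ 2) ∂ν

/-- `g(t) = t^{2-m} ∫ K(|x|²/t²) tilt dν` -/
noncomputable def tiltK (m : ℕ) (T : Submodule ℝ E) (z : E) (K : ℝ → ℝ) (P : E → E →L[ℝ] E)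
    (ν : Measure E) (t : ℝ) : ℝ := t ^ (2 - (m : ℤ)) * ∫ y, K (bsq T z y / t ^ 2) * tilt T P y ∂ν

/-- `b(t) = t^{-m} ∫ k(|x|²/t²) |x - P x|² dν` -/
noncomputable def radK (m : ℕ) (T : Submodule ℝ E) (z : E) (k : ℝ → ℝ) (P : E → E →L[ℝ] E)
    (ν : Measure E) (t : ℝ) : ℝ := t ^ (-(m : ℤ)) * ∫ y, k (bsq T z y / t ^ 2) * rad T P z y ∂ν

/-- `H_F(t) = t^{-m} ∫ k(|x|²/t²) F dν` -/
noncomputable def hgtK (m : ℕ) (T : Submodule ℝ E) (z : E) (k : ℝ → ℝ) (F : E → ℝ)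
    (ν : Measure E) (t : ℝ) : ℝ := t ^ (-(m : ℤ)) * ∫ y, k (bsq T z y / t ^ 2) * F y ∂ν

lemma rad_nonneg (y : E) : 0 ≤ rad T P z y := sq_nonneg _

/-- data used throughout: `P` is measurable and an orthogonal projection of rank `m` a.e. -/
structure Plane (m : ℕ) (ν : Measure E) (P : E → E →L[ℝ] E) : Prop where
  meas : AEStronglyMeasurable P ν
  proj : ∀ᵐ y ∂ν, ∃ S : Submodule ℝ E, Module.finrank ℝ S = m ∧ P y = S.starProjection

lemma Plane.tilt_eq (h : Plane m ν P) :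
    ∀ᵐ y ∂ν, tr (T.starProjection.comp (P y)) = m - tilt T P y := by
  filter_upwards [h.proj] with y hy
  obtain ⟨S, hS, hP⟩ := hy
  unfold tilt
  have : tr (P y) = m := by rw [hP, tr_starProjection, hS]
  rw [this]; ring

lemma Plane.rad_le (h : Plane m ν P) : ∀ᵐ y ∂ν, rad T P z y ≤ bsq T z y := by
  filter_upwards [h.proj] with y hy
  obtain ⟨S, hS, hP⟩ := hy
  unfold rad bsq
  rw [hP]
  have := proj_norm_le (S := S) (bx T z y)
  gcongr

lemma Plane.inner_eq (h : Plane m ν P) :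
    ∀ᵐ y ∂ν, ⟪bx T z y, P y (bx T z y)⟫ = bsq T z y - rad T P z y := by
  filter_upwards [h.proj] with y hy
  obtain ⟨S, hS, hP⟩ := hy
  unfold rad bsq
  rw [hP, inner_proj_self]

lemma Plane.abs_tilt_le (h : Plane m ν P) :
    ∀ᵐ y ∂ν, |tilt T P y| ≤ 2 * (Module.finrank ℝ E) := by
  filter_upwards [h.proj] with y hy
  obtain ⟨S, hS, hP⟩ := hy
  unfold tilt
  rw [hP]
  have h1 : ‖S.starProjection‖ ≤ 1 := S.starProjection_norm_le
  have h2 : ‖T.starProjection.comp S.starProjection‖ ≤ 1 := by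
    calc ‖T.starProjection.comp S.starProjection‖ ≤ ‖T.starProjection‖ * ‖S.starProjection‖ :=
          ContinuousLinearMap.opNorm_comp_le _ _
      _ ≤ 1 * 1 := by gcongr; exact T.starProjection_norm_le
      _ = 1 := by ring
  have h3 := abs_tr_le (S.starProjection)
  have h4 := abs_tr_le (T.starProjection.comp S.starProjection)
  have h5 : (0:ℝ) ≤ Module.finrank ℝ E := by positivity
  calc |tr S.starProjection - tr (T.starProjection.comp S.starProjection)|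
      ≤ |tr S.starProjection| + |tr (T.starProjection.comp S.starProjection)| := abs_sub _ _
    _ ≤ Module.finrank ℝ E * 1 + Module.finrank ℝ E * 1 := by
        gcongr
        · exact h3.trans (by gcongr)
        · exact h4.trans (by gcongr)
    _ = _ := by ring

lemma integral_lin4 {f₁ f₂ f₃ f₄ : E → ℝ} (i₁ : Integrable f₁ ν) (i₂ : Integrable f₂ ν)
    (i₃ : Integrable f₃ ν) (i₄ : Integrable f₄ ν) (a₁ a₂ a₃ a₄ : ℝ) :
    ∫ y, (a₁ * f₁ y + a₂ * f₂ y + a₃ * f₃ y + a₄ * f₄ y) ∂ν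
      = a₁ * (∫ y, f₁ y ∂ν) + a₂ * (∫ y, f₂ y ∂ν) + a₃ * (∫ y, f₃ y ∂ν)
        + a₄ * (∫ y, f₄ y ∂ν) := by
  have j₁ : Integrable (fun y => a₁ * f₁ y) ν := i₁.const_mul _
  have j₂ : Integrable (fun y => a₂ * f₂ y) ν := i₂.const_mul _
  have j₃ : Integrable (fun y => a₃ * f₃ y) ν := i₃.const_mul _
  have j₄ : Integrable (fun y => a₄ * f₄ y) ν := i₄.const_mul _
  have j₁₂ : Integrable (fun y => a₁ * f₁ y + a₂ * f₂ y) ν := j₁.add j₂
  have j₁₂₃ : Integrable (fun y => a₁ * f₁ y + a₂ * f₂ y + a₃ * f₃ y) ν := j₁₂.add j₃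
  rw [integral_add j₁₂₃ j₄, integral_add j₁₂ j₃, integral_add j₁ j₂, integral_const_mul,
    integral_const_mul, integral_const_mul, integral_const_mul]

/-- **Inner variation in ODE form**: `M' = t^{-3} (b - g)`. -/
theorem hasDerivAt_massK [IsFiniteMeasure ν] (h : Plane m ν P) (hk : Kern k k' K) {t : ℝ}
    (ht : 0 < t)
    (hin : ∫ y, (K (bsq T z y / t ^ 2) * tr (T.starProjection.comp (P y))
      - k (bsq T z y / t ^ 2) / t ^ 2 * ⟪bx T z y, P y (bx T z y)⟫) ∂ν = 0) :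
    HasDerivAt (massK m T z K ν)
      (t⁻¹ ^ 3 * (radK m T z k P ν t - tiltK m T z K P ν t)) t := by
  have ham : AEStronglyMeasurable (bsq T z) ν := (continuous_bsq T z).aestronglyMeasurable
  have ha0 : ∀ y, 0 ≤ bsq T z y := bsq_nonneg T z
  have key := hasDerivAt_scaled (ν := ν) hk.pK ham ha0 (w := fun _ => (1:ℝ))
    aestronglyMeasurable_const (R := t + 1) (C := 1)
    (Eventually.of_forall fun y _ => by simp) ht (by linarith) (-(m : ℤ))
  have hfun : (fun t : ℝ => t ^ (-(m : ℤ)) * ∫ y, K (bsq T z y / t ^ 2) * 1 ∂ν)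
      = massK m T z K ν := by
    funext s; simp [massK]
  rw [hfun] at key
  refine key.congr_deriv ?_
  -- integrability
  have hiK : ∀ (w : E → ℝ) (C : ℝ), AEStronglyMeasurable w ν →
      (∀ᵐ y ∂ν, bsq T z y < (t + 1) ^ 2 → |w y| ≤ C) →
      Integrable (fun y => K (bsq T z y / t ^ 2) * w y) ν := fun w C hw hC =>
    integrable_kernel hk.pK.continuous hk.pK.zero ham ha0 hw hC ht (by linarith)
  have hik : ∀ (w : E → ℝ) (C : ℝ), AEStronglyMeasurable w ν →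
      (∀ᵐ y ∂ν, bsq T z y < (t + 1) ^ 2 → |w y| ≤ C) →
      Integrable (fun y => k (bsq T z y / t ^ 2) * w y) ν := fun w C hw hC =>
    integrable_kernel hk.pk.continuous hk.pk.zero ham ha0 hw hC ht (by linarith)
  have i1 : Integrable (fun y => K (bsq T z y / t ^ 2) * tilt T P y) ν :=
    hiK _ (2 * (Module.finrank ℝ E)) (aesm_tilt h.meas) (by
      filter_upwards [h.abs_tilt_le (T := T)] with y hy _ using hy)
  have i2 : Integrable (fun y => k (bsq T z y / t ^ 2) * rad T P z y) ν :=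
    hik _ ((t + 1) ^ 2) (aesm_rad h.meas) (by
      filter_upwards [h.rad_le (T := T) (z := z)] with y hy hy2
      rw [abs_of_nonneg (rad_nonneg y)]
      exact hy.trans hy2.le)
  have i3 : Integrable (fun y => K (bsq T z y / t ^ 2) * 1) ν :=
    hiK _ 1 aestronglyMeasurable_const (Eventually.of_forall fun y _ => by simp)
  have i4 : Integrable (fun y => k (bsq T z y / t ^ 2) * bsq T z y) ν :=
    hik _ ((t + 1) ^ 2) ham (Eventually.of_forall fun y hy => by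
      rw [abs_of_nonneg (ha0 y)]; exact hy.le)
  -- rewrite the inner variation identity
  have e1 : ∫ y, (K (bsq T z y / t ^ 2) * tr (T.starProjection.comp (P y))
      - k (bsq T z y / t ^ 2) / t ^ 2 * ⟪bx T z y, P y (bx T z y)⟫) ∂ν
      = m * (∫ y, K (bsq T z y / t ^ 2) * 1 ∂ν) - (∫ y, K (bsq T z y / t ^ 2) * tilt T P y ∂ν)
        - t⁻¹ ^ 2 * (∫ y, k (bsq T z y / t ^ 2) * bsq T z y ∂ν)
        + t⁻¹ ^ 2 * (∫ y, k (bsq T z y / t ^ 2) * rad T P z y ∂ν) := by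
    have h0 := integral_lin4 i3 i1 i4 i2 (m : ℝ) (-1) (-(t⁻¹ ^ 2)) (t⁻¹ ^ 2)
    have h00 : ∫ y, (K (bsq T z y / t ^ 2) * tr (T.starProjection.comp (P y))
      - k (bsq T z y / t ^ 2) / t ^ 2 * ⟪bx T z y, P y (bx T z y)⟫) ∂ν
      = ∫ y, ((m : ℝ) * (K (bsq T z y / t ^ 2) * 1) + (-1) * (K (bsq T z y / t ^ 2) * tilt T P y)
        + (-(t⁻¹ ^ 2)) * (k (bsq T z y / t ^ 2) * bsq T z y)
        + (t⁻¹ ^ 2) * (k (bsq T z y / t ^ 2) * rad T P z y)) ∂ν := by
      refine integral_congr_ae ?_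
      filter_upwards [h.tilt_eq (T := T), h.inner_eq (T := T) (z := z)] with y h1 h2
      rw [h1, h2]
      field_simp
      ring
    rw [h00, h0]
    ring
  rw [e1] at hin
  have e2 : ∫ y, (((-(m : ℤ) : ℤ) : ℝ) * K (bsq T z y / t ^ 2)
        - 2 * (bsq T z y / t ^ 2) * (-(k (bsq T z y / t ^ 2)) / 2)) * 1 ∂ν
      = -(m * (∫ y, K (bsq T z y / t ^ 2) * 1 ∂ν))
        + t⁻¹ ^ 2 * (∫ y, k (bsq T z y / t ^ 2) * bsq T z y ∂ν) := by
    have h0 := integral_lin4 i3 i4 i3 i3 (-(m : ℝ)) (t⁻¹ ^ 2) 0 0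
    have h00 : ∫ y, (((-(m : ℤ) : ℤ) : ℝ) * K (bsq T z y / t ^ 2)
        - 2 * (bsq T z y / t ^ 2) * (-(k (bsq T z y / t ^ 2)) / 2)) * 1 ∂ν
      = ∫ y, ((-(m : ℝ)) * (K (bsq T z y / t ^ 2) * 1)
        + (t⁻¹ ^ 2) * (k (bsq T z y / t ^ 2) * bsq T z y)
        + 0 * (K (bsq T z y / t ^ 2) * 1) + 0 * (K (bsq T z y / t ^ 2) * 1)) ∂ν := by
      refine integral_congr_ae (Eventually.of_forall fun y => ?_)
      simp only [Int.cast_neg, Int.cast_natCast]
      field_simp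
      ring
    rw [h00, h0]
    ring
  rw [e2]
  unfold radK tiltK
  have e3 : t ^ (2 - (m : ℤ)) = t ^ 2 * t ^ (-(m : ℤ)) := by
    rw [show (2 - (m : ℤ)) = 2 + (-(m : ℤ)) by ring, zpow_add₀ ht.ne']
    norm_cast
  rw [e3]
  have e4 : m * (∫ y, K (bsq T z y / t ^ 2) * 1 ∂ν)
      = (∫ y, K (bsq T z y / t ^ 2) * tilt T P y ∂ν)
        + t⁻¹ ^ 2 * (∫ y, k (bsq T z y / t ^ 2) * bsq T z y ∂ν)
        - t⁻¹ ^ 2 * (∫ y, k (bsq T z y / t ^ 2) * rad T P z y ∂ν) := by linarith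
  rw [e4]
  field_simp
  ring

/-- **Second order identity in ODE form**: `t H_F' = g_F + error`, with
`g_F = t^{2-m} ∫ K L`, `L = tr (D²F P)`. -/
theorem hasDerivAt_hgtK [IsFiniteMeasure ν] (h : Plane m ν P) (hk : Kern k k' K)
    {F L : E → ℝ} {R C t : ℝ} (ht : 0 < t) (htR : t < R)
    (hF : AEStronglyMeasurable F ν) (hFb : ∀ᵐ y ∂ν, bsq T z y < R ^ 2 → |F y| ≤ C)
    (hsec : ∫ y, F y * (-(k (bsq T z y / t ^ 2)) * tr (T.starProjection.comp (P y))
      - 2 * k' (bsq T z y / t ^ 2) / t ^ 2 * ⟪bx T z y, P y (bx T z y)⟫) ∂ν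
      = t ^ 2 * ∫ y, K (bsq T z y / t ^ 2) * L y ∂ν) :
    HasDerivAt (hgtK m T z k F ν)
      (t⁻¹ * (t ^ (2 - (m : ℤ)) * (∫ y, K (bsq T z y / t ^ 2) * L y ∂ν)
        - t ^ (-(m : ℤ)) * ∫ y, F y * (k (bsq T z y / t ^ 2) * tilt T P y
          + 2 * k' (bsq T z y / t ^ 2) / t ^ 2 * rad T P z y) ∂ν)) t := by
  have ham : AEStronglyMeasurable (bsq T z) ν := (continuous_bsq T z).aestronglyMeasurable
  have ha0 : ∀ y, 0 ≤ bsq T z y := bsq_nonneg T z
  have key := hasDerivAt_scaled (ν := ν) hk.pk ham ha0 hF hFb ht htR (-(m : ℤ))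
  refine key.congr_deriv ?_
  have hik : ∀ (w : E → ℝ) (C : ℝ), AEStronglyMeasurable w ν →
      (∀ᵐ y ∂ν, bsq T z y < R ^ 2 → |w y| ≤ C) →
      Integrable (fun y => k (bsq T z y / t ^ 2) * w y) ν := fun w C hw hC =>
    integrable_kernel hk.pk.continuous hk.pk.zero ham ha0 hw hC ht htR.le
  have hik' : ∀ (w : E → ℝ) (C : ℝ), AEStronglyMeasurable w ν →
      (∀ᵐ y ∂ν, bsq T z y < R ^ 2 → |w y| ≤ C) →
      Integrable (fun y => k' (bsq T z y / t ^ 2) * w y) ν := fun w C hw hC =>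
    integrable_kernel hk.pk.cont (fun s hs => hk.pk.zero' hs) ham ha0 hw hC ht htR.le
  have hC' : ∀ᵐ y ∂ν, bsq T z y < R ^ 2 → |F y| ≤ |C| := by
    filter_upwards [hFb] with y hy h2 using (hy h2).trans (le_abs_self _)
  have i1 : Integrable (fun y => k (bsq T z y / t ^ 2) * F y) ν := hik _ C hF hFb
  have i2 : Integrable (fun y => k (bsq T z y / t ^ 2) * (F y * tilt T P y)) ν :=
    hik _ (|C| * (2 * (Module.finrank ℝ E))) (hF.mul (aesm_tilt h.meas)) (by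
      filter_upwards [h.abs_tilt_le (T := T), hC'] with y hy h2 h3
      rw [abs_mul]
      exact mul_le_mul (h2 h3) hy (abs_nonneg _) (abs_nonneg _))
  have i3 : Integrable (fun y => k' (bsq T z y / t ^ 2) * (F y * bsq T z y)) ν :=
    hik' _ (|C| * R ^ 2) (hF.mul ham) (by
      filter_upwards [hC'] with y h2 h3
      rw [abs_mul, abs_of_nonneg (ha0 y)]
      exact mul_le_mul (h2 h3) h3.le (ha0 y) (abs_nonneg _))
  have i4 : Integrable (fun y => k' (bsq T z y / t ^ 2) * (F y * rad T P z y)) ν :=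
    hik' _ (|C| * R ^ 2) (hF.mul (aesm_rad h.meas)) (by
      filter_upwards [hC', h.rad_le (T := T) (z := z)] with y h2 h4 h3
      rw [abs_mul, abs_of_nonneg (rad_nonneg y)]
      exact mul_le_mul (h2 h3) (h4.trans h3.le) (rad_nonneg y) (abs_nonneg _))
  have e1 : ∫ y, F y * (-(k (bsq T z y / t ^ 2)) * tr (T.starProjection.comp (P y))
      - 2 * k' (bsq T z y / t ^ 2) / t ^ 2 * ⟪bx T z y, P y (bx T z y)⟫) ∂ν
      = (-(m : ℝ)) * (∫ y, k (bsq T z y / t ^ 2) * F y ∂ν)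
        + 1 * (∫ y, k (bsq T z y / t ^ 2) * (F y * tilt T P y) ∂ν)
        + (-(2 * t⁻¹ ^ 2)) * (∫ y, k' (bsq T z y / t ^ 2) * (F y * bsq T z y) ∂ν)
        + (2 * t⁻¹ ^ 2) * (∫ y, k' (bsq T z y / t ^ 2) * (F y * rad T P z y) ∂ν) := by
    rw [← integral_lin4 i1 i2 i3 i4]
    refine integral_congr_ae ?_
    filter_upwards [h.tilt_eq (T := T), h.inner_eq (T := T) (z := z)] with y h1 h2
    rw [h1, h2]
    field_simp
    ring
  have e2 : ∫ y, (((-(m : ℤ) : ℤ) : ℝ) * k (bsq T z y / t ^ 2)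
        - 2 * (bsq T z y / t ^ 2) * k' (bsq T z y / t ^ 2)) * F y ∂ν
      = (-(m : ℝ)) * (∫ y, k (bsq T z y / t ^ 2) * F y ∂ν)
        + 0 * (∫ y, k (bsq T z y / t ^ 2) * (F y * tilt T P y) ∂ν)
        + (-(2 * t⁻¹ ^ 2)) * (∫ y, k' (bsq T z y / t ^ 2) * (F y * bsq T z y) ∂ν)
        + 0 * (∫ y, k' (bsq T z y / t ^ 2) * (F y * rad T P z y) ∂ν) := by
    rw [← integral_lin4 i1 i2 i3 i4]
    refine integral_congr_ae (Eventually.of_forall fun y => ?_)
    simp only [Int.cast_neg, Int.cast_natCast]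
    field_simp
    ring
  have e3 : ∫ y, F y * (k (bsq T z y / t ^ 2) * tilt T P y
          + 2 * k' (bsq T z y / t ^ 2) / t ^ 2 * rad T P z y) ∂ν
      = 0 * (∫ y, k (bsq T z y / t ^ 2) * F y ∂ν)
        + 1 * (∫ y, k (bsq T z y / t ^ 2) * (F y * tilt T P y) ∂ν)
        + 0 * (∫ y, k' (bsq T z y / t ^ 2) * (F y * bsq T z y) ∂ν)
        + (2 * t⁻¹ ^ 2) * (∫ y, k' (bsq T z y / t ^ 2) * (F y * rad T P z y) ∂ν) := by
    rw [← integral_lin4 i1 i2 i3 i4]
    refine integral_congr_ae (Eventually.of_forall fun y => ?_)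
    simp only
    field_simp
    ring
  rw [e2, e3]
  rw [e1] at hsec
  have e4 : t ^ (2 - (m : ℤ)) = t ^ 2 * t ^ (-(m : ℤ)) := by
    rw [show (2 - (m : ℤ)) = 2 + (-(m : ℤ)) by ring, zpow_add₀ ht.ne']
    norm_cast
  rw [e4, show t ^ 2 * t ^ (-(m : ℤ)) * (∫ y, K (bsq T z y / t ^ 2) * L y ∂ν)
    = t ^ (-(m : ℤ)) * (t ^ 2 * ∫ y, K (bsq T z y / t ^ 2) * L y ∂ν) by ring, ← hsec]
  ring

/-- weighted Cauchy-Schwarz -/
lemma cauchy_schwarz_weight {w u v : E → ℝ} (hw : ∀ y, 0 ≤ w y)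
    (i1 : Integrable (fun y => w y * u y ^ 2) ν) (i2 : Integrable (fun y => w y * (u y * v y)) ν)
    (i3 : Integrable (fun y => w y * v y ^ 2) ν) :
    (∫ y, w y * (u y * v y) ∂ν) ^ 2 ≤ (∫ y, w y * u y ^ 2 ∂ν) * ∫ y, w y * v y ^ 2 ∂ν := by
  have h : ∀ s : ℝ, 0 ≤ (∫ y, w y * u y ^ 2 ∂ν) * (s * s)
      + (2 * ∫ y, w y * (u y * v y) ∂ν) * s + ∫ y, w y * v y ^ 2 ∂ν := by
    intro s
    have h0 : 0 ≤ ∫ y, w y * (s * u y + v y) ^ 2 ∂ν :=
      integral_nonneg fun y => mul_nonneg (hw y) (sq_nonneg _)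
    have h1 := integral_lin4 i1 i2 i3 i3 (s * s) (2 * s) 1 0
    have h2 : ∫ y, w y * (s * u y + v y) ^ 2 ∂ν = ∫ y, (s * s * (w y * u y ^ 2)
        + 2 * s * (w y * (u y * v y)) + 1 * (w y * v y ^ 2) + 0 * (w y * v y ^ 2)) ∂ν :=
      integral_congr_ae (Eventually.of_forall fun y => by ring)
    rw [h2, h1] at h0
    linarith
  have h3 := discrim_le_zero h
  unfold discrim at h3
  nlinarith

/-- **Outer variation and Cauchy-Schwarz**: `g_F² ≤ (t^{-m} ∫ k |∇F|²) b`. -/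
theorem tilt_sq_le [IsFiniteMeasure ν] (h : Plane m ν P) (hk : Kern k k' K)
    {L : E → ℝ} {G : E → E} {R C t : ℝ} (ht : 0 < t) (htR : t < R)
    (hG : AEStronglyMeasurable G ν) (hGb : ∀ᵐ y ∂ν, bsq T z y < R ^ 2 → ‖G y‖ ≤ C)
    (hGT : ∀ y, T.starProjection (G y) = 0)
    (hout : ∫ y, K (bsq T z y / t ^ 2) * L y ∂ν
      = ∫ y, k (bsq T z y / t ^ 2) / t ^ 2 * ⟪bx T z y, P y (G y)⟫ ∂ν) :
    (t ^ (2 - (m : ℤ)) * (∫ y, K (bsq T z y / t ^ 2) * L y ∂ν)) ^ 2
      ≤ (t ^ (-(m : ℤ)) * ∫ y, k (bsq T z y / t ^ 2) * ‖G y‖ ^ 2 ∂ν)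
        * radK m T z k P ν t := by
  have ham : AEStronglyMeasurable (bsq T z) ν := (continuous_bsq T z).aestronglyMeasurable
  have ha0 : ∀ y, 0 ≤ bsq T z y := bsq_nonneg T z
  have hR : 0 < R := ht.trans htR
  have hik : ∀ (w : E → ℝ) (C : ℝ), AEStronglyMeasurable w ν →
      (∀ᵐ y ∂ν, bsq T z y < R ^ 2 → |w y| ≤ C) →
      Integrable (fun y => k (bsq T z y / t ^ 2) * w y) ν := fun w C hw hC =>
    integrable_kernel hk.pk.continuous hk.pk.zero ham ha0 hw hC ht htR.le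
  have hGb' : ∀ᵐ y ∂ν, bsq T z y < R ^ 2 → ‖G y‖ ≤ |C| := by
    filter_upwards [hGb] with y hy h2 using (hy h2).trans (le_abs_self _)
  have hrm : AEStronglyMeasurable (fun y => ‖bx T z y - P y (bx T z y)‖) ν := by
    have h1 : AEStronglyMeasurable (bx T z) ν := (continuous_bx T z).aestronglyMeasurable
    exact (h1.sub (aesm_clm_apply h.meas h1)).norm
  have hrb : ∀ᵐ y ∂ν, bsq T z y < R ^ 2 → ‖bx T z y - P y (bx T z y)‖ ≤ R := by
    filter_upwards [h.rad_le (T := T) (z := z)] with y h1 h2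
    have h3 : ‖bx T z y - P y (bx T z y)‖ ^ 2 ≤ R ^ 2 := h1.trans h2.le
    exact le_of_sq_le_sq h3 hR.le
  have i1 : Integrable (fun y => k (bsq T z y / t ^ 2) * ‖G y‖ ^ 2) ν :=
    hik _ (|C| ^ 2) (hG.norm.pow 2) (by
      filter_upwards [hGb'] with y h1 h2
      rw [abs_of_nonneg (sq_nonneg _)]
      have := h1 h2
      gcongr)
  have i2 : Integrable (fun y => k (bsq T z y / t ^ 2)
      * (‖G y‖ * ‖bx T z y - P y (bx T z y)‖)) ν :=
    hik _ (|C| * R) (hG.norm.mul hrm) (by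
      filter_upwards [hGb', hrb] with y h1 h3 h2
      rw [abs_of_nonneg (by positivity)]
      exact mul_le_mul (h1 h2) (h3 h2) (norm_nonneg _) (abs_nonneg _))
  have i3 : Integrable (fun y => k (bsq T z y / t ^ 2) * ‖bx T z y - P y (bx T z y)‖ ^ 2) ν :=
    hik _ (R ^ 2) (hrm.pow 2) (by
      filter_upwards [hrb] with y h3 h2
      rw [abs_of_nonneg (sq_nonneg _)]
      have := h3 h2
      gcongr)
  have hcs := cauchy_schwarz_weight (ν := ν) (fun y => hk.nonneg (bsq T z y / t ^ 2)) i1 i2 i3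
  -- pointwise bound
  have hpt : ∀ᵐ y ∂ν, |⟪bx T z y, P y (G y)⟫| ≤ ‖G y‖ * ‖bx T z y - P y (bx T z y)‖ := by
    filter_upwards [h.proj] with y hy
    obtain ⟨S, hS, hP⟩ := hy
    rw [hP]
    have h1 : ⟪bx T z y, S.starProjection (G y)⟫ = ⟪S.starProjection (bx T z y), G y⟫ :=
      (S.inner_starProjection_left_eq_right (bx T z y) (G y)).symm
    have h2 : ⟪bx T z y, G y⟫ = 0 := by
      unfold bx
      rw [T.inner_starProjection_left_eq_right, hGT, inner_zero_right]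
    have h3 : ⟪bx T z y, S.starProjection (G y)⟫
        = -⟪bx T z y - S.starProjection (bx T z y), G y⟫ := by
      rw [inner_sub_left, h2, h1]; ring
    rw [h3, abs_neg, mul_comm]
    exact abs_real_inner_le_norm _ _
  have hle : |∫ y, k (bsq T z y / t ^ 2) / t ^ 2 * ⟪bx T z y, P y (G y)⟫ ∂ν|
      ≤ t⁻¹ ^ 2 * ∫ y, k (bsq T z y / t ^ 2) * (‖G y‖ * ‖bx T z y - P y (bx T z y)‖) ∂ν := by
    rw [← integral_const_mul]
    refine (abs_integral_le_integral_abs).trans ?_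
    refine integral_mono_of_nonneg (Eventually.of_forall fun y => abs_nonneg _)
      (i2.const_mul _) ?_
    filter_upwards [hpt] with y hy
    rw [abs_mul, abs_of_nonneg (div_nonneg (hk.nonneg _) (by positivity))]
    have h0 := hk.nonneg (bsq T z y / t ^ 2)
    calc k (bsq T z y / t ^ 2) / t ^ 2 * |⟪bx T z y, P y (G y)⟫|
        ≤ k (bsq T z y / t ^ 2) / t ^ 2 * (‖G y‖ * ‖bx T z y - P y (bx T z y)‖) := by
          gcongr
      _ = _ := by field_simp
  have hX0 : 0 ≤ ∫ y, k (bsq T z y / t ^ 2) * (‖G y‖ * ‖bx T z y - P y (bx T z y)‖) ∂ν :=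
    integral_nonneg fun y => mul_nonneg (hk.nonneg _) (by positivity)
  rw [hout]
  unfold radK
  have e4 : t ^ (2 - (m : ℤ)) = t ^ 2 * t ^ (-(m : ℤ)) := by
    rw [show (2 - (m : ℤ)) = 2 + (-(m : ℤ)) by ring, zpow_add₀ ht.ne']
    norm_cast
  have htm : 0 < t ^ (-(m : ℤ)) := zpow_pos ht _
  have h5 : (t ^ (2 - (m : ℤ)) * ∫ y, k (bsq T z y / t ^ 2) / t ^ 2
      * ⟪bx T z y, P y (G y)⟫ ∂ν) ^ 2
      ≤ (t ^ (-(m : ℤ)) * ∫ y, k (bsq T z y / t ^ 2)
        * (‖G y‖ * ‖bx T z y - P y (bx T z y)‖) ∂ν) ^ 2 := by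
    rw [← sq_abs (t ^ (2 - (m : ℤ)) * _)]
    rw [abs_mul, abs_of_nonneg (zpow_nonneg ht.le _), e4]
    have h6 := mul_le_mul_of_nonneg_left hle (show 0 ≤ t ^ 2 * t ^ (-(m : ℤ)) by positivity)
    have h7 : t ^ 2 * t ^ (-(m : ℤ)) * (t⁻¹ ^ 2 * ∫ y, k (bsq T z y / t ^ 2)
        * (‖G y‖ * ‖bx T z y - P y (bx T z y)‖) ∂ν)
        = t ^ (-(m : ℤ)) * ∫ y, k (bsq T z y / t ^ 2)
        * (‖G y‖ * ‖bx T z y - P y (bx T z y)‖) ∂ν := by
      field_simp
    rw [h7] at h6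
    gcongr
  refine h5.trans ?_
  rw [mul_pow]
  have h8 : (∫ y, k (bsq T z y / t ^ 2) * rad T P z y ∂ν)
      = ∫ y, k (bsq T z y / t ^ 2) * ‖bx T z y - P y (bx T z y)‖ ^ 2 ∂ν := rfl
  rw [h8]
  calc (t ^ (-(m : ℤ))) ^ 2 * (∫ y, k (bsq T z y / t ^ 2)
        * (‖G y‖ * ‖bx T z y - P y (bx T z y)‖) ∂ν) ^ 2
      ≤ (t ^ (-(m : ℤ))) ^ 2 * ((∫ y, k (bsq T z y / t ^ 2) * ‖G y‖ ^ 2 ∂ν)
        * ∫ y, k (bsq T z y / t ^ 2) * ‖bx T z y - P y (bx T z y)‖ ^ 2 ∂ν) := by gcongr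
    _ = _ := by ring

end Vale.Agent.P214.ODE
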