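import Vale.Agent.P214.FV.Cyl
import Vale.Agent.P214.ODE.Mono

/-!
# P214, block ODE: the exact ODE package over `CylStat`

For a stationary `CylStat` over the base set `G`, a centre `z`, a kernel pair `k, K` and a height
function `F` of class `C^2`:
* `CylStat.mass_ode`   : `M' = t^{-3} (b - g)`,
* `CylStat.height_ode` : `H_F' = t^{-1} (g_F - err)`,
* `CylStat.cs`         : `g_F² ≤ (t^{-m} ∫ k |∇F|²) b`,
* `rad_le_tilt`        : `|x - P x|² ≤ |x|² tilt`, and the resulting bound of `err`.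
-/

open Set Filter Topology MeasureTheory Metric
open scoped RealInnerProductSpace

set_option linter.all false

namespace Vale.Agent.P214.ODE

open Vale.Agent.P214.FV

variable {E : Type*} [NormedAddCommGroup E] [InnerProductSpace ℝ E] [FiniteDimensional ℝ E]
  [MeasurableSpace E] [BorelSpace E]

variable {m : ℕ} {T : Submodule ℝ E} {G : Set E} {h : ℝ} {ν : Measure E} {P : E → E →L[ℝ] E}
  {z : E} {k k' K : ℝ → ℝ}

lemma CylStat.plane (hC : CylStat m T G h ν P) : Plane m ν P := ⟨hC.meas, hC.proj⟩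

/-- the closed base ball of radius `t` about `z` lies in `G` -/
def BallIn (T : Submodule ℝ E) (G : Set E) (z : E) (t : ℝ) : Prop :=
  ∀ x ∈ T, ‖x - T.starProjection z‖ ≤ t → x ∈ G

lemma bx_eq (T : Submodule ℝ E) (z y : E) : bx T z y = T.starProjection y - T.starProjection z := by
  unfold bx; rw [map_sub]

/-- functions vanishing for `bsq ≥ t²` have compact base support -/
lemma baseCpt_of_zero {F' : Type*} [Zero F'] {X : E → F'} {t : ℝ} (hG : BallIn T G z t)
    (hX : ∀ y, t < ‖bx T z y‖ → X y = 0) : BaseCpt T G X := by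
  refine ⟨{x | x ∈ T ∧ ‖x - T.starProjection z‖ ≤ t}, ?_, ?_, ?_⟩
  · refine Metric.isCompact_of_isClosed_isBounded ?_ ?_
    · have hT : IsClosed (T : Set E) := T.closed_of_finiteDimensional
      exact hT.inter (isClosed_le (continuous_id.sub continuous_const).norm continuous_const)
    · refine (Metric.isBounded_closedBall (x := T.starProjection z) (r := t)).subset ?_
      rintro x ⟨-, hx⟩
      rw [mem_closedBall, dist_eq_norm]; exact hx
  · rintro x ⟨hx, hx2⟩; exact hG x hx hx2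
  · intro y hy
    apply hX
    by_contra hcon
    apply hy
    refine ⟨T.starProjection_apply_mem y, ?_⟩
    rw [← bx_eq]; exact not_lt.1 hcon

lemma hasFDerivAt_bx (T : Submodule ℝ E) (z y : E) :
    HasFDerivAt (bx T z) (T.starProjection) y := by
  have h3 : HasFDerivAt (fun y : E => y - z) (ContinuousLinearMap.id ℝ E) y :=
    (hasFDerivAt_id y).sub_const z
  have h4 : HasFDerivAt (T.starProjection ∘ fun y : E => y - z)
      (T.starProjection.comp (ContinuousLinearMap.id ℝ E)) y :=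
    T.starProjection.hasFDerivAt.comp y h3
  rw [ContinuousLinearMap.comp_id] at h4
  exact h4

lemma starProjection_bx (T : Submodule ℝ E) (z y : E) : T.starProjection (bx T z y) = bx T z y :=
  (Submodule.starProjection_eq_self_iff).2 (T.starProjection_apply_mem _)

lemma hasFDerivAt_bsq (T : Submodule ℝ E) (z y : E) :
    HasFDerivAt (bsq T z) ((2:ℝ) • innerSL ℝ (bx T z y)) y := by
  have h1 := (hasFDerivAt_bx T z y).norm_sq
  have h2 : HasFDerivAt (bsq T z)
      ((2:ℝ) • (innerSL ℝ (bx T z y)).comp T.starProjection) y := by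
    refine h1.congr_fderiv ?_
    ext v
    simp [two_smul, two_mul]
  have h3 : (innerSL ℝ (bx T z y)).comp T.starProjection = innerSL ℝ (bx T z y) := by
    ext v
    simp only [ContinuousLinearMap.comp_apply, innerSL_apply_apply]
    rw [← T.inner_starProjection_left_eq_right, starProjection_bx]
  rw [h3] at h2
  exact h2

lemma contDiff_bx (T : Submodule ℝ E) (z : E) {n : WithTop ℕ∞} : ContDiff ℝ n (bx T z) := by
  unfold bx
  exact T.starProjection.contDiff.comp (contDiff_id.sub contDiff_const)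

lemma contDiff_bsq (T : Submodule ℝ E) (z : E) {n : WithTop ℕ∞} : ContDiff ℝ n (bsq T z) := by
  unfold bsq
  exact (contDiff_bx T z).norm_sq ℝ

/-- derivative of a radial profile -/
lemma hasFDerivAt_profile {ψ ψ' : ℝ → ℝ} (hψ : Profile ψ ψ') (t : ℝ) (y : E) :
    HasFDerivAt (fun y => ψ (bsq T z y / t ^ 2))
      ((ψ' (bsq T z y / t ^ 2) * (2 / t ^ 2)) • innerSL ℝ (bx T z y)) y := by
  have h1 : HasFDerivAt (fun y => bsq T z y / t ^ 2)
      ((t ^ 2)⁻¹ • ((2:ℝ) • innerSL ℝ (bx T z y))) y := by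
    have := (hasFDerivAt_bsq T z y).const_mul ((t ^ 2)⁻¹)
    refine this.congr_of_eventuallyEq (Eventually.of_forall fun y => ?_)
    simp only [div_eq_inv_mul]
  have h2 := (hψ.der (bsq T z y / t ^ 2)).comp_hasFDerivAt y h1
  have h3 : HasFDerivAt (fun y => ψ (bsq T z y / t ^ 2))
      (ψ' (bsq T z y / t ^ 2) • ((t ^ 2)⁻¹ • ((2:ℝ) • innerSL ℝ (bx T z y)))) y := h2
  rw [smul_smul, smul_smul] at h3
  convert h3 using 2
  ring

lemma contDiff_profile {ψ ψ' : ℝ → ℝ} (hψ : Profile ψ ψ') (t : ℝ) :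
    ContDiff ℝ 1 (fun y => ψ (bsq T z y / t ^ 2)) :=
  hψ.contDiff.comp ((contDiff_bsq T z).div_const _)

/-- `K` is of class `C²` -/
lemma Kern.contDiff_two (hk : Kern k k' K) : ContDiff ℝ 2 K := by
  have hder : deriv K = fun s => -(k s) / 2 := funext fun s => (hk.pK.der s).deriv
  rw [show (2 : WithTop ℕ∞) = 1 + 1 by norm_num, contDiff_succ_iff_deriv]
  refine ⟨fun s => (hk.pK.der s).differentiableAt, by simp, ?_⟩
  rw [hder]
  exact (hk.pk.contDiff.neg).div_const 2

lemma profile_zero {ψ ψ' : ℝ → ℝ} (hψ : Profile ψ ψ') {t : ℝ} (ht : 0 < t) (y : E)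
    (hy : t < ‖bx T z y‖) : ψ (bsq T z y / t ^ 2) = 0 := by
  refine hψ.zero _ ?_
  rw [one_le_div (by positivity)]
  unfold bsq
  gcongr

/-- **The inner variation identity with the kernel `K`.** -/
lemma CylStat.hin (hC : CylStat m T G h ν P) (hk : Kern k k' K) {t : ℝ} (ht : 0 < t)
    (hG : BallIn T G z t) :
    ∫ y, (K (bsq T z y / t ^ 2) * tr (T.starProjection.comp (P y))
      - k (bsq T z y / t ^ 2) / t ^ 2 * ⟪bx T z y, P y (bx T z y)⟫) ∂ν = 0 := by
  have h1 := hC.linear T.starProjection z (ψ := fun y => K (bsq T z y / t ^ 2))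
    (contDiff_profile hk.pK t) (baseCpt_of_zero hG fun y hy => profile_zero hk.pK ht y hy)
  rw [← h1]
  refine integral_congr_ae (Eventually.of_forall fun y => ?_)
  simp only
  rw [(hasFDerivAt_profile hk.pK t y).fderiv]
  simp only [_root_.smul_apply, innerSL_apply_apply, smul_eq_mul, bx]
  ring

/-- **Inner variation in ODE form** over `CylStat`. -/
theorem CylStat.mass_ode (hC : CylStat m T G h ν P) (hk : Kern k k' K) {t : ℝ} (ht : 0 < t)
    (hG : BallIn T G z t) :
    HasDerivAt (massK m T z K ν)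
      (t⁻¹ ^ 3 * (radK m T z k P ν t - tiltK m T z K P ν t)) t := by
  haveI := hC.fin
  exact hasDerivAt_massK (CylStat.plane hC) hk ht (CylStat.hin hC hk ht hG)

/-- `g_F(t) = t^{2-m} ∫ K(|x|²/t²) tr(D²F P) dν` -/
noncomputable def hessK (m : ℕ) (T : Submodule ℝ E) (z : E) (K : ℝ → ℝ) (F : E → ℝ)
    (P : E → E →L[ℝ] E) (ν : Measure E) (t : ℝ) : ℝ :=
  t ^ (2 - (m : ℤ)) * ∫ y, K (bsq T z y / t ^ 2) * hess F (P y) y ∂ν

/-- the quartic error term -/
noncomputable def errK (m : ℕ) (T : Submodule ℝ E) (z : E) (k k' : ℝ → ℝ) (F : E → ℝ)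
    (P : E → E →L[ℝ] E) (ν : Measure E) (t : ℝ) : ℝ :=
  t ^ (-(m : ℤ)) * ∫ y, F y * (k (bsq T z y / t ^ 2) * tilt T P y
    + 2 * k' (bsq T z y / t ^ 2) / t ^ 2 * rad T P z y) ∂ν

lemma grad_profile (hk : Kern k k' K) {t : ℝ} (ht : 0 < t) (y : E) :
    grad (fun y => t ^ 2 * K (bsq T z y / t ^ 2)) y
      = -(k (bsq T z y / t ^ 2)) • bx T z y := by
  have h1 : HasFDerivAt (fun y => t ^ 2 * K (bsq T z y / t ^ 2))
      (t ^ 2 • ((-(k (bsq T z y / t ^ 2)) / 2 * (2 / t ^ 2)) • innerSL ℝ (bx T z y))) y :=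
    (hasFDerivAt_profile hk.pK t y).const_mul (t ^ 2)
  unfold grad
  rw [h1.fderiv, smul_smul]
  have h2 : t ^ 2 * (-(k (bsq T z y / t ^ 2)) / 2 * (2 / t ^ 2)) = -(k (bsq T z y / t ^ 2)) := by
    field_simp
  rw [h2]
  rw [LinearIsometryEquiv.symm_apply_eq]
  ext v
  simp [InnerProductSpace.toDual_apply_apply, inner_smul_left]

lemma hess_profile (hk : Kern k k' K) {t : ℝ} (ht : 0 < t) (y : E) (B : E →L[ℝ] E) :
    hess (fun y => t ^ 2 * K (bsq T z y / t ^ 2)) B y
      = -(k (bsq T z y / t ^ 2)) * tr (T.starProjection.comp B)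
        - 2 * k' (bsq T z y / t ^ 2) / t ^ 2 * ⟪bx T z y, B (bx T z y)⟫ := by
  unfold hess
  have h0 : grad (fun y => t ^ 2 * K (bsq T z y / t ^ 2))
      = fun y => -(k (bsq T z y / t ^ 2)) • bx T z y := funext fun y => grad_profile hk ht y
  rw [h0]
  have h1 : DifferentiableAt ℝ (fun y => -(k (bsq T z y / t ^ 2))) y :=
    ((hasFDerivAt_profile hk.pk t y).differentiableAt).neg
  have h2 := tr_fderiv_smul h1 (hasFDerivAt_bx T z y).differentiableAt B
  rw [h2, (hasFDerivAt_bx T z y).fderiv]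
  have h3 : fderiv ℝ (fun y => -(k (bsq T z y / t ^ 2))) y
      = -((k' (bsq T z y / t ^ 2) * (2 / t ^ 2)) • innerSL ℝ (bx T z y)) :=
    (hasFDerivAt_profile hk.pk t y).neg.fderiv
  rw [h3]
  simp only [_root_.neg_apply, _root_.smul_apply, innerSL_apply_apply, smul_eq_mul]
  ring

/-- **Second order identity with the kernel.** -/
lemma CylStat.hsec (hC : CylStat m T G h ν P) (hk : Kern k k' K) {F : E → ℝ}
    (hF : ContDiff ℝ 2 F) {t : ℝ} (ht : 0 < t) (hG : BallIn T G z t) :
    ∫ y, F y * (-(k (bsq T z y / t ^ 2)) * tr (T.starProjection.comp (P y))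
      - 2 * k' (bsq T z y / t ^ 2) / t ^ 2 * ⟪bx T z y, P y (bx T z y)⟫) ∂ν
      = t ^ 2 * ∫ y, K (bsq T z y / t ^ 2) * hess F (P y) y ∂ν := by
  have hφ : ContDiff ℝ 2 (fun y => t ^ 2 * K (bsq T z y / t ^ 2)) :=
    contDiff_const.mul (hk.contDiff_two.comp ((contDiff_bsq T z).div_const _))
  have h1 := hC.second hφ hF (baseCpt_of_zero hG fun y hy => by
    rw [profile_zero hk.pK ht y hy, mul_zero])
  rw [← integral_const_mul]
  rw [show (fun y => t ^ 2 * (K (bsq T z y / t ^ 2) * hess F (P y) y))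
    = fun y => t ^ 2 * K (bsq T z y / t ^ 2) * hess F (P y) y by funext y; ring, h1]
  refine integral_congr_ae (Eventually.of_forall fun y => ?_)
  simp only
  rw [hess_profile hk ht]

/-- base-ball bound for continuous functions -/
lemma CylStat.ball_bound (hC : CylStat m T G h ν P) {F : E → ℝ} (hF : Continuous F) {R : ℝ}
    (hR : 0 < R) (hG : BallIn T G z R) : ∃ C, ∀ᵐ y ∂ν, bsq T z y < R ^ 2 → |F y| ≤ C := by
  have hcpt : IsCompact {y : E | ‖bx T z y‖ ≤ R ∧ ‖y - T.starProjection y‖ ≤ h} := by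
    refine Metric.isCompact_of_isClosed_isBounded ?_ ?_
    · exact (isClosed_le (continuous_bx T z).norm continuous_const).inter
        (isClosed_le (continuous_id.sub T.starProjection.continuous).norm continuous_const)
    · refine (Metric.isBounded_closedBall (x := (0 : E))
        (r := R + ‖T.starProjection z‖ + h)).subset ?_
      rintro y ⟨h1, h2⟩
      rw [mem_closedBall_zero_iff]
      rw [bx_eq] at h1
      calc ‖y‖ = ‖(T.starProjection y - T.starProjection z) + T.starProjection z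
            + (y - T.starProjection y)‖ := by congr 1; abel
        _ ≤ ‖(T.starProjection y - T.starProjection z) + T.starProjection z‖
            + ‖y - T.starProjection y‖ := norm_add_le _ _
        _ ≤ (‖T.starProjection y - T.starProjection z‖ + ‖T.starProjection z‖)
            + ‖y - T.starProjection y‖ := by gcongr; exact norm_add_le _ _
        _ ≤ R + ‖T.starProjection z‖ + h := by gcongr
  obtain ⟨C, hCb⟩ := hcpt.exists_bound_of_continuousOn hF.continuousOn
  refine ⟨C, ?_⟩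
  filter_upwards [hC.slab] with y hy hlt
  have h1 : ‖bx T z y‖ ≤ R := by
    unfold bsq at hlt
    exact (lt_of_pow_lt_pow_left₀ 2 hR.le hlt).le
  have h2 : T.starProjection y ∈ G := hG _ (T.starProjection_apply_mem y) (by
    rw [← bx_eq]; exact h1)
  exact hCb y ⟨h1, hy h2⟩

/-- **Second order identity in ODE form** over `CylStat`. -/
theorem CylStat.height_ode (hC : CylStat m T G h ν P) (hk : Kern k k' K) {F : E → ℝ}
    (hF : ContDiff ℝ 2 F) {t R : ℝ} (ht : 0 < t) (htR : t < R) (hG : BallIn T G z R) :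
    HasDerivAt (hgtK m T z k F ν)
      (t⁻¹ * (hessK m T z K F P ν t - errK m T z k k' F P ν t)) t := by
  haveI := hC.fin
  obtain ⟨C, hCb⟩ := CylStat.ball_bound hC hF.continuous (ht.trans htR) hG
  exact hasDerivAt_hgtK (CylStat.plane hC) hk ht htR hF.continuous.aestronglyMeasurable hCb
    (CylStat.hsec hC hk hF ht (fun x hx hx2 => hG x hx (hx2.trans htR.le)))

/-- **Outer variation identity with the kernel `K`.** -/
lemma CylStat.hout (hC : CylStat m T G h ν P) (hk : Kern k k' K) {F : E → ℝ}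
    (hF : ContDiff ℝ 2 F) {t : ℝ} (ht : 0 < t) (hG : BallIn T G z t) :
    ∫ y, K (bsq T z y / t ^ 2) * hess F (P y) y ∂ν
      = ∫ y, k (bsq T z y / t ^ 2) / t ^ 2 * ⟪bx T z y, P y (grad F y)⟫ ∂ν := by
  have h1 := hC.prod' (φ := fun y => K (bsq T z y / t ^ 2)) (contDiff_profile hk.pK t)
    (contDiff_grad hF) (baseCpt_of_zero hG fun y hy => profile_zero hk.pK ht y hy)
  have h2 : ∫ y, K (bsq T z y / t ^ 2) * hess F (P y) y ∂ν
      = -∫ y, fderiv ℝ (fun y => K (bsq T z y / t ^ 2)) y (P y (grad F y)) ∂ν := h1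
  rw [h2, ← integral_neg]
  refine integral_congr_ae (Eventually.of_forall fun y => ?_)
  simp only
  rw [(hasFDerivAt_profile hk.pK t y).fderiv]
  simp only [_root_.smul_apply, innerSL_apply_apply, smul_eq_mul]
  ring

/-- **Cauchy-Schwarz** over `CylStat`: `g_F² ≤ (t^{-m} ∫ k |∇F|²) b` for height functions `F`. -/
theorem CylStat.cs (hC : CylStat m T G h ν P) (hk : Kern k k' K) {F : E → ℝ}
    (hF : ContDiff ℝ 2 F) (hFT : ∀ y, T.starProjection (grad F y) = 0)
    {t R : ℝ} (ht : 0 < t) (htR : t < R) (hG : BallIn T G z R) :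
    hessK m T z K F P ν t ^ 2
      ≤ (t ^ (-(m : ℤ)) * ∫ y, k (bsq T z y / t ^ 2) * ‖grad F y‖ ^ 2 ∂ν)
        * radK m T z k P ν t := by
  haveI := hC.fin
  obtain ⟨C, hCb⟩ := CylStat.ball_bound hC (contDiff_grad hF).continuous.norm (ht.trans htR) hG
  refine tilt_sq_le (CylStat.plane hC) hk ht htR (contDiff_grad hF).continuous.aestronglyMeasurable
    (C := C) ?_ hFT (CylStat.hout hC hk hF ht (fun x hx hx2 => hG x hx (hx2.trans htR.le)))
  filter_upwards [hCb] with y hy h2
  have := hy h2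
  rwa [abs_of_nonneg (norm_nonneg _)] at this

/-- for `|∇F|² ≤ 2 F` (distance squared and its concave caps): `g_F² ≤ 2 H_F b` -/
theorem CylStat.cs_two (hC : CylStat m T G h ν P) (hk : Kern k k' K) {F : E → ℝ}
    (hF : ContDiff ℝ 2 F) (hFT : ∀ y, T.starProjection (grad F y) = 0)
    {t R : ℝ} (ht : 0 < t) (htR : t < R) (hG : BallIn T G z R)
    (h2F : ∀ᵐ y ∂ν, bsq T z y < R ^ 2 → ‖grad F y‖ ^ 2 ≤ 2 * F y) :
    hessK m T z K F P ν t ^ 2 ≤ 2 * hgtK m T z k F ν t * radK m T z k P ν t := by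
  haveI := hC.fin
  refine (CylStat.cs hC hk hF hFT ht htR hG).trans ?_
  have hr : 0 ≤ radK m T z k P ν t := by
    unfold radK
    refine mul_nonneg (zpow_nonneg ht.le _) (integral_nonneg fun y => ?_)
    exact mul_nonneg (hk.nonneg _) (rad_nonneg y)
  refine mul_le_mul_of_nonneg_right ?_ hr
  unfold hgtK
  have ham : AEStronglyMeasurable (bsq T z) ν := (continuous_bsq T z).aestronglyMeasurable
  obtain ⟨C, hCb⟩ := CylStat.ball_bound hC hF.continuous (ht.trans htR) hG
  have i1 : Integrable (fun y => k (bsq T z y / t ^ 2) * F y) ν :=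
    integrable_kernel hk.pk.continuous hk.pk.zero ham (bsq_nonneg T z)
      hF.continuous.aestronglyMeasurable hCb ht htR.le
  have e1 : 2 * (t ^ (-(m : ℤ)) * ∫ y, k (bsq T z y / t ^ 2) * F y ∂ν)
      = t ^ (-(m : ℤ)) * ∫ y, 2 * (k (bsq T z y / t ^ 2) * F y) ∂ν := by
    rw [integral_const_mul]; ring
  rw [e1]
  refine mul_le_mul_of_nonneg_left ?_ (zpow_nonneg ht.le _)
  refine integral_mono_of_nonneg (Eventually.of_forall fun y =>
    mul_nonneg (hk.nonneg _) (sq_nonneg _)) (i1.const_mul 2) ?_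
  filter_upwards [h2F] with y hy
  by_cases hlt : bsq T z y < R ^ 2
  · have h1 := hy hlt
    have h3 := mul_le_mul_of_nonneg_left h1 (hk.nonneg (bsq T z y / t ^ 2))
    linarith
  · have h3 : k (bsq T z y / t ^ 2) = 0 := by
      refine hk.pk.zero _ ?_
      rw [one_le_div (by positivity)]
      have : t ^ 2 ≤ R ^ 2 := by gcongr
      linarith [not_lt.1 hlt]
    simp [h3]

/-! ### the tilt controls the radial normal energy -/

/-- trace over an orthonormal basis of `T` -/
lemma tr_proj_comp (T : Submodule ℝ E) (B : E →L[ℝ] E) {ι : Type*} [Fintype ι]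
    (b : OrthonormalBasis ι ℝ T) :
    tr (T.starProjection.comp B) = ∑ i, ⟪(b i : E), B (b i)⟫ := by
  -- `T.starProjection v = ∑ ⟪b i, v⟫ b i`
  have hexp : ∀ v, T.starProjection v = ∑ i, ⟪(b i : E), v⟫ • (b i : E) := by
    intro v
    have h1 := b.sum_repr' (T.orthogonalProjection v)
    have h2 : T.starProjection v = ((T.orthogonalProjection v : T) : E) := rfl
    have h5 : ((T.orthogonalProjection v : T) : E)
        = ∑ i, ⟪b i, T.orthogonalProjection v⟫ • (b i : E) := by
      have h6 := congrArg (fun v : T => (v : E)) h1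
      simp only [Submodule.coe_sum, Submodule.coe_smul] at h6
      exact h6.symm
    rw [h2, h5]
    refine Finset.sum_congr rfl fun i _ => ?_
    congr 1
    have h3 : ⟪b i, T.orthogonalProjection v⟫ = ⟪(b i : E), v⟫ := by
      rw [Submodule.coe_inner]
      have h4 : ⟪(b i : E), ((T.orthogonalProjection v : T) : E)⟫
          = ⟪(b i : E), T.starProjection v⟫ := rfl
      rw [h4, ← T.inner_starProjection_left_eq_right,
        (Submodule.starProjection_eq_self_iff).2 (b i).2]
    exact h3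
  have hop : T.starProjection.comp B
      = ∑ i, ((innerSL ℝ (b i : E)).comp B).smulRight (b i : E) := by
    ext v
    simp [hexp, ContinuousLinearMap.sum_apply]
  rw [hop]
  have hsum : tr (∑ i, ((innerSL ℝ (b i : E)).comp B).smulRight (b i : E))
      = ∑ i, tr (((innerSL ℝ (b i : E)).comp B).smulRight (b i : E)) := by
    unfold tr
    simp [map_sum]
  rw [hsum]
  refine Finset.sum_congr rfl fun i _ => ?_
  rw [tr_smulRight]
  simp

/-- the tilt of a rank `m` projection is `∑ |b i - P b i|²` over an orthonormal basis of `T` -/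
lemma tilt_eq_sum {S T : Submodule ℝ E} (hST : Module.finrank ℝ S = Module.finrank ℝ T)
    {ι : Type*} [Fintype ι] (b : OrthonormalBasis ι ℝ T) :
    tr S.starProjection - tr (T.starProjection.comp S.starProjection)
      = ∑ i, ‖(b i : E) - S.starProjection (b i : E)‖ ^ 2 := by
  rw [tr_proj_comp T _ b, tr_starProjection, hST]
  have h1 : (Module.finrank ℝ T : ℝ) = ∑ i : ι, ‖(b i : E)‖ ^ 2 := by
    have h2 : ∀ i, ‖(b i : E)‖ = 1 := fun i => by
      have := b.norm_eq_one i
      exact this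
    simp only [h2]
    simp only [one_pow, Finset.sum_const, Finset.card_univ, nsmul_eq_mul, mul_one]
    rw [Module.finrank_eq_card_basis b.toBasis]
  rw [h1, ← Finset.sum_sub_distrib]
  refine Finset.sum_congr rfl fun i _ => ?_
  rw [inner_proj_self]; ring

lemma tilt_nonneg_of {S T : Submodule ℝ E} (hST : Module.finrank ℝ S = Module.finrank ℝ T) :
    0 ≤ tr S.starProjection - tr (T.starProjection.comp S.starProjection) := by
  rw [tilt_eq_sum hST (stdOrthonormalBasis ℝ T)]
  positivity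

/-- `|x - P x|² ≤ |x|² tilt` for `x ∈ T` -/
lemma normal_sq_le {S T : Submodule ℝ E} (hST : Module.finrank ℝ S = Module.finrank ℝ T)
    {x : E} (hx : x ∈ T) :
    ‖x - S.starProjection x‖ ^ 2
      ≤ ‖x‖ ^ 2 * (tr S.starProjection - tr (T.starProjection.comp S.starProjection)) := by
  set b := stdOrthonormalBasis ℝ T with hb
  rw [tilt_eq_sum hST b]
  have h1 := b.sum_repr' (⟨x, hx⟩ : T)
  have h2 : x = ∑ i, ⟪b i, (⟨x, hx⟩ : T)⟫ • (b i : E) := by
    have h3 := congrArg (fun v : T => (v : E)) h1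
    simp only [Submodule.coe_sum, Submodule.coe_smul] at h3
    exact h3.symm
  have h4 : x - S.starProjection x
      = ∑ i, ⟪b i, (⟨x, hx⟩ : T)⟫ • ((b i : E) - S.starProjection (b i : E)) := by
    conv_lhs => rw [h2]
    simp only [map_sum, map_smul, smul_sub, Finset.sum_sub_distrib]
  have h5 : ∑ i, ⟪b i, (⟨x, hx⟩ : T)⟫ ^ 2 = ‖x‖ ^ 2 := by
    have h6 := b.sum_sq_norm_inner_right (⟨x, hx⟩ : T)
    simp only [Real.norm_eq_abs, sq_abs] at h6
    rw [h6]; rfl
  have h7 : ‖x - S.starProjection x‖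
      ≤ ∑ i, |⟪b i, (⟨x, hx⟩ : T)⟫| * ‖(b i : E) - S.starProjection (b i : E)‖ := by
    rw [h4]
    refine (norm_sum_le _ _).trans (le_of_eq ?_)
    refine Finset.sum_congr rfl fun i _ => ?_
    rw [norm_smul, Real.norm_eq_abs]
  have h8 := Finset.sum_mul_sq_le_sq_mul_sq Finset.univ
    (fun i => |⟪b i, (⟨x, hx⟩ : T)⟫|) (fun i => ‖(b i : E) - S.starProjection (b i : E)‖)
  simp only [sq_abs] at h8
  rw [h5] at h8
  refine le_trans ?_ h8
  gcongr

lemma CylStat.tilt_nonneg (hC : CylStat m T G h ν P) : ∀ᵐ y ∂ν, 0 ≤ tilt T P y := by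
  filter_upwards [hC.proj] with y hy
  obtain ⟨S, hS, hP⟩ := hy
  unfold tilt
  rw [hP]
  exact tilt_nonneg_of (hS.trans hC.dimT.symm)

/-- **`rad ≤ bsq · tilt`** -/
lemma CylStat.rad_le_tilt (hC : CylStat m T G h ν P) (z : E) :
    ∀ᵐ y ∂ν, rad T P z y ≤ bsq T z y * tilt T P y := by
  filter_upwards [hC.proj] with y hy
  obtain ⟨S, hS, hP⟩ := hy
  unfold tilt rad bsq
  rw [hP]
  exact normal_sq_le (hS.trans hC.dimT.symm) (T.starProjection_apply_mem _)

end Vale.Agent.P214.ODE
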