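import Vale.Agent.P214.ODE.Pack
import Mathlib.Analysis.SpecialFunctions.Log.Deriv

/-!
# P214, block THW: the height ODE with the weight `θ = ⟪x, P x⟫ / |x|²`

With `x = p (y - z)` and `θ = 1 - |x - P x|²/|x|²` the functional
`H^θ(t) = t^{-m} ∫ k F θ` satisfies
* `t (H^θ)' = g_F - t^{-m} ∫ k F (tilt - m |x - P x|²/|x|²)`   (`CylStat.height_ode_theta`),
* `g_F² ≤ (t^{-m} ∫ k |∇F|² θ) b`                              (`CylStat.cs_theta`, exact),
* if `k = 0` on `[0, 1/4]`, `0 ≤ F ≤ S` on the ball:  `t (H^θ)' ≤ g_F + (4 m S / t²) b`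
  (`CylStat.height_theta_deriv_le`): the quartic error is absorbed by the radial term `b` which
  occurs in `t (g + λ)' = 2 λ + 2 b`.  No doubling, no other scale.
-/

open Set Filter Topology MeasureTheory Metric
open scoped RealInnerProductSpace

set_option linter.all false

namespace Vale.Agent.P214.ODE

open Vale.Agent.P214.FV

variable {E : Type*} [NormedAddCommGroup E] [InnerProductSpace ℝ E] [FiniteDimensional ℝ E]
  [MeasurableSpace E] [BorelSpace E]

variable {m : ℕ} {T : Submodule ℝ E} {G : Set E} {h : ℝ} {ν : Measure E} {P : E → E →L[ℝ] E}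
  {z : E} {k k' K : ℝ → ℝ}

/-- the weight `θ = 1 - |x - P x|²/|x|² = ⟪x, P x⟫ / |x|²` -/
noncomputable def theta (T : Submodule ℝ E) (P : E → E →L[ℝ] E) (z y : E) : ℝ :=
  1 - rad T P z y / bsq T z y

/-- `H^θ_F(t) = t^{-m} ∫ k(|x|²/t²) F θ dν` -/
noncomputable def hgtTh (m : ℕ) (T : Submodule ℝ E) (z : E) (k : ℝ → ℝ) (F : E → ℝ)
    (P : E → E →L[ℝ] E) (ν : Measure E) (t : ℝ) : ℝ :=
  t ^ (-(m : ℤ)) * ∫ y, k (bsq T z y / t ^ 2) * (F y * theta T P z y) ∂ν

/-- the error term of the weighted height ODE (to be subtracted) -/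
noncomputable def errTh (m : ℕ) (T : Submodule ℝ E) (z : E) (k : ℝ → ℝ) (F : E → ℝ)
    (P : E → E →L[ℝ] E) (ν : Measure E) (t : ℝ) : ℝ :=
  t ^ (-(m : ℤ)) * ∫ y, k (bsq T z y / t ^ 2)
    * (F y * (tilt T P y - m * (rad T P z y / bsq T z y))) ∂ν

lemma Plane.ratio_mem (h : Plane m ν P) :
    ∀ᵐ y ∂ν, 0 ≤ rad T P z y / bsq T z y ∧ rad T P z y / bsq T z y ≤ 1 := by
  filter_upwards [h.rad_le (T := T) (z := z)] with y hy
  exact ⟨div_nonneg (rad_nonneg y) (bsq_nonneg T z y), div_le_one_of_le₀ hy (bsq_nonneg T z y)⟩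

lemma Plane.theta_mem (h : Plane m ν P) :
    ∀ᵐ y ∂ν, 0 ≤ theta T P z y ∧ theta T P z y ≤ 1 := by
  filter_upwards [h.ratio_mem (T := T) (z := z)] with y hy
  unfold theta
  exact ⟨by linarith [hy.2], by linarith [hy.1]⟩

/-- `⟪x, P x⟫ = |x|² θ` -/
lemma Plane.inner_eq_theta (h : Plane m ν P) :
    ∀ᵐ y ∂ν, ⟪bx T z y, P y (bx T z y)⟫ = bsq T z y * theta T P z y := by
  filter_upwards [h.inner_eq (T := T) (z := z), h.rad_le (T := T) (z := z)] with y h1 h2
  rw [h1]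
  unfold theta
  by_cases h0 : bsq T z y = 0
  · have h3 : rad T P z y = 0 := le_antisymm (h2.trans h0.le) (rad_nonneg y)
    rw [h0, h3]; ring
  · field_simp

lemma aesm_ratio (hP : AEStronglyMeasurable P ν) :
    AEStronglyMeasurable (fun y => rad T P z y / bsq T z y) ν := by
  have h1 : AEMeasurable (rad T P z) ν := (aesm_rad hP).aemeasurable
  have h2 : AEMeasurable (bsq T z) ν := (continuous_bsq T z).measurable.aemeasurable
  exact (h1.div h2).aestronglyMeasurable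

lemma aesm_theta (hP : AEStronglyMeasurable P ν) :
    AEStronglyMeasurable (theta T P z) ν := by
  unfold theta
  exact aestronglyMeasurable_const.sub (aesm_ratio hP)

/-- **Weighted second order identity in ODE form**. -/
theorem hasDerivAt_hgtTh [IsFiniteMeasure ν] (h : Plane m ν P) (hk : Kern k k' K)
    {F L : E → ℝ} {R C t : ℝ} (ht : 0 < t) (htR : t < R)
    (hF : AEStronglyMeasurable F ν) (hFb : ∀ᵐ y ∂ν, bsq T z y < R ^ 2 → |F y| ≤ C)
    (hsec : ∫ y, F y * (-(k (bsq T z y / t ^ 2)) * tr (T.starProjection.comp (P y))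
      - 2 * k' (bsq T z y / t ^ 2) / t ^ 2 * ⟪bx T z y, P y (bx T z y)⟫) ∂ν
      = t ^ 2 * ∫ y, K (bsq T z y / t ^ 2) * L y ∂ν) :
    HasDerivAt (hgtTh m T z k F P ν)
      (t⁻¹ * (t ^ (2 - (m : ℤ)) * (∫ y, K (bsq T z y / t ^ 2) * L y ∂ν)
        - errTh m T z k F P ν t)) t := by
  have ham : AEStronglyMeasurable (bsq T z) ν := (continuous_bsq T z).aestronglyMeasurable
  have ha0 : ∀ y, 0 ≤ bsq T z y := bsq_nonneg T z
  have hC' : ∀ᵐ y ∂ν, bsq T z y < R ^ 2 → |F y| ≤ |C| := by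
    filter_upwards [hFb] with y hy h2 using (hy h2).trans (le_abs_self _)
  have hFth : ∀ᵐ y ∂ν, bsq T z y < R ^ 2 → |F y * theta T P z y| ≤ |C| := by
    filter_upwards [hC', h.theta_mem (T := T) (z := z)] with y hy h2 h3
    rw [abs_mul, abs_of_nonneg h2.1]
    calc |F y| * theta T P z y ≤ |C| * 1 :=
          mul_le_mul (hy h3) h2.2 h2.1 (abs_nonneg _)
      _ = |C| := mul_one _
  have hFthm : AEStronglyMeasurable (fun y => F y * theta T P z y) ν := hF.mul (aesm_theta h.meas)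
  have key := hasDerivAt_scaled (ν := ν) hk.pk ham ha0 hFthm hFth ht htR (-(m : ℤ))
  refine key.congr_deriv ?_
  have hik : ∀ (w : E → ℝ) (C : ℝ), AEStronglyMeasurable w ν →
      (∀ᵐ y ∂ν, bsq T z y < R ^ 2 → |w y| ≤ C) →
      Integrable (fun y => k (bsq T z y / t ^ 2) * w y) ν := fun w C hw hC =>
    integrable_kernel hk.pk.continuous hk.pk.zero ham ha0 hw hC ht htR.le
  have hik' : ∀ (w : E → ℝ) (C : ℝ), AEStronglyMeasurable w ν →
      (∀ᵐ y ∂ν, bsq T z y < R ^ 2 → |w y| ≤ C) →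
      Integrable (fun y => k' (bsq T z y / t ^ 2) * w y) ν := fun w C hw hC =>
    integrable_kernel hk.pk.cont (fun s hs => hk.pk.zero' hs) ham ha0 hw hC ht htR.le
  have i1 : Integrable (fun y => k (bsq T z y / t ^ 2) * F y) ν := hik _ C hF hFb
  have i2 : Integrable (fun y => k (bsq T z y / t ^ 2) * (F y * tilt T P y)) ν :=
    hik _ (|C| * (2 * (Module.finrank ℝ E))) (hF.mul (aesm_tilt h.meas)) (by
      filter_upwards [h.abs_tilt_le (T := T), hC'] with y hy h2 h3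
      rw [abs_mul]
      exact mul_le_mul (h2 h3) hy (abs_nonneg _) (abs_nonneg _))
  have i3 : Integrable (fun y => k (bsq T z y / t ^ 2)
      * (F y * (rad T P z y / bsq T z y))) ν :=
    hik _ |C| (hF.mul (aesm_ratio h.meas)) (by
      filter_upwards [hC', h.ratio_mem (T := T) (z := z)] with y h2 h4 h3
      rw [abs_mul, abs_of_nonneg h4.1]
      calc |F y| * (rad T P z y / bsq T z y) ≤ |C| * 1 :=
            mul_le_mul (h2 h3) h4.2 h4.1 (abs_nonneg _)
        _ = |C| := mul_one _)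
  have i4 : Integrable (fun y => k' (bsq T z y / t ^ 2)
      * (F y * (bsq T z y * theta T P z y))) ν :=
    hik' _ (|C| * R ^ 2) (hF.mul (ham.mul (aesm_theta h.meas))) (by
      filter_upwards [hC', h.theta_mem (T := T) (z := z)] with y h2 h4 h3
      rw [abs_mul, abs_of_nonneg (mul_nonneg (ha0 y) h4.1)]
      refine mul_le_mul (h2 h3) ?_ (mul_nonneg (ha0 y) h4.1) (abs_nonneg _)
      calc bsq T z y * theta T P z y ≤ R ^ 2 * 1 :=
            mul_le_mul h3.le h4.2 h4.1 (by positivity)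
        _ = R ^ 2 := mul_one _)
  have e1 : ∫ y, F y * (-(k (bsq T z y / t ^ 2)) * tr (T.starProjection.comp (P y))
      - 2 * k' (bsq T z y / t ^ 2) / t ^ 2 * ⟪bx T z y, P y (bx T z y)⟫) ∂ν
      = (-(m : ℝ)) * (∫ y, k (bsq T z y / t ^ 2) * F y ∂ν)
        + 1 * (∫ y, k (bsq T z y / t ^ 2) * (F y * tilt T P y) ∂ν)
        + 0 * (∫ y, k (bsq T z y / t ^ 2) * (F y * (rad T P z y / bsq T z y)) ∂ν)
        + (-(2 * t⁻¹ ^ 2)) * (∫ y, k' (bsq T z y / t ^ 2)
            * (F y * (bsq T z y * theta T P z y)) ∂ν) := by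
    rw [← integral_lin4 i1 i2 i3 i4]
    refine integral_congr_ae ?_
    filter_upwards [h.tilt_eq (T := T), h.inner_eq_theta (T := T) (z := z)] with y h1 h2
    rw [h1, h2]
    field_simp
    ring
  have e2 : ∫ y, (((-(m : ℤ) : ℤ) : ℝ) * k (bsq T z y / t ^ 2)
        - 2 * (bsq T z y / t ^ 2) * k' (bsq T z y / t ^ 2)) * (F y * theta T P z y) ∂ν
      = (-(m : ℝ)) * (∫ y, k (bsq T z y / t ^ 2) * F y ∂ν)
        + 0 * (∫ y, k (bsq T z y / t ^ 2) * (F y * tilt T P y) ∂ν)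
        + (m : ℝ) * (∫ y, k (bsq T z y / t ^ 2) * (F y * (rad T P z y / bsq T z y)) ∂ν)
        + (-(2 * t⁻¹ ^ 2)) * (∫ y, k' (bsq T z y / t ^ 2)
            * (F y * (bsq T z y * theta T P z y)) ∂ν) := by
    rw [← integral_lin4 i1 i2 i3 i4]
    refine integral_congr_ae (Eventually.of_forall fun y => ?_)
    simp only [Int.cast_neg, Int.cast_natCast, theta]
    field_simp
    ring
  have e3 : ∫ y, k (bsq T z y / t ^ 2)
        * (F y * (tilt T P y - m * (rad T P z y / bsq T z y))) ∂ν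
      = 0 * (∫ y, k (bsq T z y / t ^ 2) * F y ∂ν)
        + 1 * (∫ y, k (bsq T z y / t ^ 2) * (F y * tilt T P y) ∂ν)
        + (-(m : ℝ)) * (∫ y, k (bsq T z y / t ^ 2) * (F y * (rad T P z y / bsq T z y)) ∂ν)
        + 0 * (∫ y, k' (bsq T z y / t ^ 2)
            * (F y * (bsq T z y * theta T P z y)) ∂ν) := by
    rw [← integral_lin4 i1 i2 i3 i4]
    refine integral_congr_ae (Eventually.of_forall fun y => ?_)
    simp only
    ring
  unfold errTh
  rw [e2, e3]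
  rw [e1] at hsec
  have e4 : t ^ (2 - (m : ℤ)) = t ^ 2 * t ^ (-(m : ℤ)) := by
    rw [show (2 - (m : ℤ)) = 2 + (-(m : ℤ)) by ring, zpow_add₀ ht.ne']
    norm_cast
  rw [e4, show t ^ 2 * t ^ (-(m : ℤ)) * (∫ y, K (bsq T z y / t ^ 2) * L y ∂ν)
    = t ^ (-(m : ℤ)) * (t ^ 2 * ∫ y, K (bsq T z y / t ^ 2) * L y ∂ν) by ring, ← hsec]
  ring

/-- **The weighted height ODE over `CylStat`**: `t (H^θ_F)' = g_F - err^θ`. -/
theorem CylStat.height_ode_theta (hC : CylStat m T G h ν P) (hk : Kern k k' K) {F : E → ℝ}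
    (hF : ContDiff ℝ 2 F) {t R : ℝ} (ht : 0 < t) (htR : t < R) (hG : BallIn T G z R) :
    HasDerivAt (hgtTh m T z k F P ν)
      (t⁻¹ * (hessK m T z K F P ν t - errTh m T z k F P ν t)) t := by
  haveI := hC.fin
  obtain ⟨C, hCb⟩ := CylStat.ball_bound hC hF.continuous (ht.trans htR) hG
  exact hasDerivAt_hgtTh (CylStat.plane hC) hk ht htR hF.continuous.aestronglyMeasurable hCb
    (CylStat.hsec hC hk hF ht (fun x hx hx2 => hG x hx (hx2.trans htR.le)))

/-- linear algebra: for `x ∈ T` and `v ⟂ T`, `⟪x, P v⟫² ≤ |v|² (⟪x,Px⟫/|x|²) |x - P x|²`;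
stated as `|⟪x, P v⟫| ≤ |v| √θ |x - P x|` with `θ = 1 - |x - P x|²/|x|²`. -/
lemma abs_inner_proj_le {S T : Submodule ℝ E} {x v : E} (hx : x ∈ T)
    (hv : T.starProjection v = 0) :
    |⟪x, S.starProjection v⟫| ≤ ‖v‖ * (Real.sqrt (1 - ‖x - S.starProjection x‖ ^ 2 / ‖x‖ ^ 2)
      * ‖x - S.starProjection x‖) := by
  by_cases hx0 : x = 0
  · subst hx0; simp
  have hxn : 0 < ‖x‖ := norm_pos_iff.2 hx0
  set r := ‖x - S.starProjection x‖ with hr
  set a := ‖x‖ with ha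
  have hr0 : 0 ≤ r := norm_nonneg _
  have hra : r ≤ a := proj_norm_le x
  -- `u = S x`, `w = u - T u`
  set u := S.starProjection x with hu
  have hin : ⟪x, u⟫ = a ^ 2 - r ^ 2 := inner_proj_self x
  have hun : ‖u‖ ^ 2 = a ^ 2 - r ^ 2 := by
    have h1 : ⟪u, x - u⟫ = 0 :=
      Submodule.inner_right_of_mem_orthogonal (S.starProjection_apply_mem x)
        (Submodule.sub_starProjection_mem_orthogonal x)
    rw [inner_sub_right, real_inner_self_eq_norm_sq, real_inner_comm, hin] at h1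
    linarith
  -- inner product with `v` only sees `w`
  have h1 : ⟪x, S.starProjection v⟫ = ⟪u - T.starProjection u, v⟫ := by
    have h2 : ⟪x, S.starProjection v⟫ = ⟪u, v⟫ :=
      (S.inner_starProjection_left_eq_right x v).symm
    have h3 : ⟪T.starProjection u, v⟫ = 0 := by
      rw [T.inner_starProjection_left_eq_right, hv, inner_zero_right]
    rw [inner_sub_left, h3, h2, sub_zero]
  -- `|w|² = |u|² - |T u|²`
  have h4 : ‖u - T.starProjection u‖ ^ 2 = ‖u‖ ^ 2 - ‖T.starProjection u‖ ^ 2 := by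
    have h5 := inner_proj_self (S := T) u
    have h6 : ⟪T.starProjection u, u - T.starProjection u⟫ = 0 :=
      Submodule.inner_right_of_mem_orthogonal (T.starProjection_apply_mem u)
        (Submodule.sub_starProjection_mem_orthogonal u)
    rw [inner_sub_right, real_inner_self_eq_norm_sq, real_inner_comm, h5] at h6
    linarith
  -- `|T u| |x| ≥ ⟪x, u⟫`
  have h7 : a ^ 2 - r ^ 2 ≤ ‖T.starProjection u‖ * a := by
    have h8 : ⟪x, u⟫ = ⟪T.starProjection u, x⟫ := by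
      rw [T.inner_starProjection_left_eq_right,
        (Submodule.starProjection_eq_self_iff).2 hx, real_inner_comm]
    rw [← hin, h8]
    exact real_inner_le_norm _ _
  have h9 : (1 - r ^ 2 / a ^ 2) ^ 2 * a ^ 2 ≤ ‖T.starProjection u‖ ^ 2 := by
    have h10 : (1 - r ^ 2 / a ^ 2) * a ≤ ‖T.starProjection u‖ := by
      have h11 : (1 - r ^ 2 / a ^ 2) * a = (a ^ 2 - r ^ 2) / a := by field_simp
      rw [h11, div_le_iff₀ hxn]
      exact h7
    have h12 : 0 ≤ (1 - r ^ 2 / a ^ 2) * a := by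
      refine mul_nonneg ?_ hxn.le
      rw [sub_nonneg]
      refine div_le_one_of_le₀ ?_ (by positivity)
      gcongr
    calc (1 - r ^ 2 / a ^ 2) ^ 2 * a ^ 2 = ((1 - r ^ 2 / a ^ 2) * a) ^ 2 := by ring
      _ ≤ _ := by gcongr
  have hθ0 : 0 ≤ 1 - r ^ 2 / a ^ 2 := by
    rw [sub_nonneg]
    refine div_le_one_of_le₀ ?_ (by positivity)
    gcongr
  have h13 : ‖u - T.starProjection u‖ ^ 2 ≤ (1 - r ^ 2 / a ^ 2) * r ^ 2 := by
    rw [h4, hun]
    have h14 : (1 - r ^ 2 / a ^ 2) * r ^ 2 = (a ^ 2 - r ^ 2) - (1 - r ^ 2 / a ^ 2) ^ 2 * a ^ 2 := by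
      field_simp
      ring
    linarith
  have h15 : ‖u - T.starProjection u‖ ≤ Real.sqrt (1 - r ^ 2 / a ^ 2) * r := by
    refine le_of_sq_le_sq ?_ (mul_nonneg (Real.sqrt_nonneg _) hr0)
    rw [mul_pow, Real.sq_sqrt hθ0]
    exact h13
  rw [h1]
  calc |⟪u - T.starProjection u, v⟫| ≤ ‖u - T.starProjection u‖ * ‖v‖ :=
        abs_real_inner_le_norm _ _
    _ ≤ (Real.sqrt (1 - r ^ 2 / a ^ 2) * r) * ‖v‖ := by gcongr
    _ = _ := by ring

/-- **Outer variation and Cauchy-Schwarz with the weight `θ`**: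
`g_F² ≤ (t^{-m} ∫ k |∇F|² θ) b`. -/
theorem tilt_sq_le_theta [IsFiniteMeasure ν] (h : Plane m ν P) (hk : Kern k k' K)
    {L : E → ℝ} {G : E → E} {R C t : ℝ} (ht : 0 < t) (htR : t < R)
    (hG : AEStronglyMeasurable G ν) (hGb : ∀ᵐ y ∂ν, bsq T z y < R ^ 2 → ‖G y‖ ≤ C)
    (hGT : ∀ y, T.starProjection (G y) = 0)
    (hout : ∫ y, K (bsq T z y / t ^ 2) * L y ∂ν
      = ∫ y, k (bsq T z y / t ^ 2) / t ^ 2 * ⟪bx T z y, P y (G y)⟫ ∂ν) :
    (t ^ (2 - (m : ℤ)) * (∫ y, K (bsq T z y / t ^ 2) * L y ∂ν)) ^ 2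
      ≤ (t ^ (-(m : ℤ)) * ∫ y, k (bsq T z y / t ^ 2) * (‖G y‖ ^ 2 * theta T P z y) ∂ν)
        * radK m T z k P ν t := by
  have ham : AEStronglyMeasurable (bsq T z) ν := (continuous_bsq T z).aestronglyMeasurable
  have ha0 : ∀ y, 0 ≤ bsq T z y := bsq_nonneg T z
  have hR : 0 < R := ht.trans htR
  have hik : ∀ (w : E → ℝ) (C : ℝ), AEStronglyMeasurable w ν →
      (∀ᵐ y ∂ν, bsq T z y < R ^ 2 → |w y| ≤ C) →
      Integrable (fun y => k (bsq T z y / t ^ 2) * w y) ν := fun w C hw hC =>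
    integrable_kernel hk.pk.continuous hk.pk.zero ham ha0 hw hC ht htR.le
  have hGb' : ∀ᵐ y ∂ν, bsq T z y < R ^ 2 → ‖G y‖ ≤ |C| := by
    filter_upwards [hGb] with y hy h2 using (hy h2).trans (le_abs_self _)
  have hrm : AEStronglyMeasurable (fun y => ‖bx T z y - P y (bx T z y)‖) ν := by
    have h1 : AEStronglyMeasurable (bx T z) ν := (continuous_bx T z).aestronglyMeasurable
    exact (h1.sub (aesm_clm_apply h.meas h1)).norm
  have hrb : ∀ᵐ y ∂ν, bsq T z y < R ^ 2 → ‖bx T z y - P y (bx T z y)‖ ≤ R := by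
    filter_upwards [h.rad_le (T := T) (z := z)] with y h1 h2
    have h3 : ‖bx T z y - P y (bx T z y)‖ ^ 2 ≤ R ^ 2 := h1.trans h2.le
    exact le_of_sq_le_sq h3 hR.le
  have hsq1 : ∀ᵐ y ∂ν, Real.sqrt (theta T P z y) ≤ 1 := by
    filter_upwards [h.theta_mem (T := T) (z := z)] with y hy
    calc Real.sqrt (theta T P z y) ≤ Real.sqrt 1 := Real.sqrt_le_sqrt hy.2
      _ = 1 := Real.sqrt_one
  have hsm : AEStronglyMeasurable (fun y => Real.sqrt (theta T P z y)) ν :=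
    Real.continuous_sqrt.comp_aestronglyMeasurable (aesm_theta h.meas)
  have i1 : Integrable (fun y => k (bsq T z y / t ^ 2)
      * (‖G y‖ * Real.sqrt (theta T P z y)) ^ 2) ν :=
    hik _ (|C| ^ 2) ((hG.norm.mul hsm).pow 2) (by
      filter_upwards [hGb', hsq1] with y h1 h3 h2
      rw [abs_of_nonneg (sq_nonneg _)]
      have h4 : ‖G y‖ * Real.sqrt (theta T P z y) ≤ |C| * 1 :=
        mul_le_mul (h1 h2) h3 (Real.sqrt_nonneg _) (abs_nonneg _)
      have h5 : 0 ≤ ‖G y‖ * Real.sqrt (theta T P z y) := by positivity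
      calc (‖G y‖ * Real.sqrt (theta T P z y)) ^ 2 ≤ (|C| * 1) ^ 2 := by gcongr
        _ = |C| ^ 2 := by ring)
  have i2 : Integrable (fun y => k (bsq T z y / t ^ 2)
      * ((‖G y‖ * Real.sqrt (theta T P z y)) * ‖bx T z y - P y (bx T z y)‖)) ν :=
    hik _ (|C| * R) ((hG.norm.mul hsm).mul hrm) (by
      filter_upwards [hGb', hrb, hsq1] with y h1 h3 h4 h2
      rw [abs_of_nonneg (by positivity)]
      have h5 : ‖G y‖ * Real.sqrt (theta T P z y) ≤ |C| * 1 :=
        mul_le_mul (h1 h2) h4 (Real.sqrt_nonneg _) (abs_nonneg _)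
      rw [mul_one] at h5
      exact mul_le_mul h5 (h3 h2) (norm_nonneg _) (abs_nonneg _))
  have i3 : Integrable (fun y => k (bsq T z y / t ^ 2) * ‖bx T z y - P y (bx T z y)‖ ^ 2) ν :=
    hik _ (R ^ 2) (hrm.pow 2) (by
      filter_upwards [hrb] with y h3 h2
      rw [abs_of_nonneg (sq_nonneg _)]
      have := h3 h2
      gcongr)
  have hcs := cauchy_schwarz_weight (ν := ν) (fun y => hk.nonneg (bsq T z y / t ^ 2)) i1 i2 i3
  -- pointwise bound
  have hpt : ∀ᵐ y ∂ν, |⟪bx T z y, P y (G y)⟫|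
      ≤ (‖G y‖ * Real.sqrt (theta T P z y)) * ‖bx T z y - P y (bx T z y)‖ := by
    filter_upwards [h.proj] with y hy
    obtain ⟨S, hS, hP⟩ := hy
    have h1 := abs_inner_proj_le (S := S) (T := T) (x := bx T z y) (v := G y)
      (T.starProjection_apply_mem _) (hGT y)
    unfold theta rad bsq
    rw [hP]
    calc _ ≤ _ := h1
      _ = _ := by ring
  have hle : |∫ y, k (bsq T z y / t ^ 2) / t ^ 2 * ⟪bx T z y, P y (G y)⟫ ∂ν|
      ≤ t⁻¹ ^ 2 * ∫ y, k (bsq T z y / t ^ 2)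
        * ((‖G y‖ * Real.sqrt (theta T P z y)) * ‖bx T z y - P y (bx T z y)‖) ∂ν := by
    rw [← integral_const_mul]
    refine (abs_integral_le_integral_abs).trans ?_
    refine integral_mono_of_nonneg (Eventually.of_forall fun y => abs_nonneg _)
      (i2.const_mul _) ?_
    filter_upwards [hpt] with y hy
    rw [abs_mul, abs_of_nonneg (div_nonneg (hk.nonneg _) (by positivity))]
    have h0 := hk.nonneg (bsq T z y / t ^ 2)
    calc k (bsq T z y / t ^ 2) / t ^ 2 * |⟪bx T z y, P y (G y)⟫|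
        ≤ k (bsq T z y / t ^ 2) / t ^ 2
          * ((‖G y‖ * Real.sqrt (theta T P z y)) * ‖bx T z y - P y (bx T z y)‖) := by
          gcongr
      _ = _ := by field_simp
  have hX0 : 0 ≤ ∫ y, k (bsq T z y / t ^ 2)
      * ((‖G y‖ * Real.sqrt (theta T P z y)) * ‖bx T z y - P y (bx T z y)‖) ∂ν :=
    integral_nonneg fun y => mul_nonneg (hk.nonneg _) (by positivity)
  rw [hout]
  unfold radK
  have e4 : t ^ (2 - (m : ℤ)) = t ^ 2 * t ^ (-(m : ℤ)) := by
    rw [show (2 - (m : ℤ)) = 2 + (-(m : ℤ)) by ring, zpow_add₀ ht.ne']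
    norm_cast
  have htm : 0 < t ^ (-(m : ℤ)) := zpow_pos ht _
  set X := ∫ y, k (bsq T z y / t ^ 2)
      * ((‖G y‖ * Real.sqrt (theta T P z y)) * ‖bx T z y - P y (bx T z y)‖) ∂ν with hX
  have h5 : (t ^ (2 - (m : ℤ)) * ∫ y, k (bsq T z y / t ^ 2) / t ^ 2
      * ⟪bx T z y, P y (G y)⟫ ∂ν) ^ 2 ≤ (t ^ (-(m : ℤ)) * X) ^ 2 := by
    rw [← sq_abs (t ^ (2 - (m : ℤ)) * _)]
    rw [abs_mul, abs_of_nonneg (zpow_nonneg ht.le _), e4]
    have h6 := mul_le_mul_of_nonneg_left hle (show 0 ≤ t ^ 2 * t ^ (-(m : ℤ)) by positivity)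
    have h7 : t ^ 2 * t ^ (-(m : ℤ)) * (t⁻¹ ^ 2 * X) = t ^ (-(m : ℤ)) * X := by
      field_simp
    rw [h7] at h6
    gcongr
  refine h5.trans ?_
  rw [mul_pow]
  have h8 : (∫ y, k (bsq T z y / t ^ 2) * rad T P z y ∂ν)
      = ∫ y, k (bsq T z y / t ^ 2) * ‖bx T z y - P y (bx T z y)‖ ^ 2 ∂ν := rfl
  have h9 : (∫ y, k (bsq T z y / t ^ 2) * (‖G y‖ ^ 2 * theta T P z y) ∂ν)
      = ∫ y, k (bsq T z y / t ^ 2) * (‖G y‖ * Real.sqrt (theta T P z y)) ^ 2 ∂ν := by
    refine integral_congr_ae ?_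
    filter_upwards [h.theta_mem (T := T) (z := z)] with y hy
    rw [mul_pow, Real.sq_sqrt hy.1]
  rw [h8, h9]
  calc (t ^ (-(m : ℤ))) ^ 2 * X ^ 2
      ≤ (t ^ (-(m : ℤ))) ^ 2 * ((∫ y, k (bsq T z y / t ^ 2)
          * (‖G y‖ * Real.sqrt (theta T P z y)) ^ 2 ∂ν)
        * ∫ y, k (bsq T z y / t ^ 2) * ‖bx T z y - P y (bx T z y)‖ ^ 2 ∂ν) := by gcongr
    _ = _ := by ring

/-- **Weighted Cauchy-Schwarz over `CylStat`.** -/
theorem CylStat.cs_theta (hC : CylStat m T G h ν P) (hk : Kern k k' K) {F : E → ℝ}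
    (hF : ContDiff ℝ 2 F) (hFT : ∀ y, T.starProjection (grad F y) = 0)
    {t R : ℝ} (ht : 0 < t) (htR : t < R) (hG : BallIn T G z R) :
    hessK m T z K F P ν t ^ 2
      ≤ (t ^ (-(m : ℤ)) * ∫ y, k (bsq T z y / t ^ 2) * (‖grad F y‖ ^ 2 * theta T P z y) ∂ν)
        * radK m T z k P ν t := by
  haveI := hC.fin
  obtain ⟨C, hCb⟩ := CylStat.ball_bound hC (contDiff_grad hF).continuous.norm (ht.trans htR) hG
  refine tilt_sq_le_theta (CylStat.plane hC) hk ht htR
    (contDiff_grad hF).continuous.aestronglyMeasurable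
    (C := C) ?_ hFT (CylStat.hout hC hk hF ht (fun x hx hx2 => hG x hx (hx2.trans htR.le)))
  filter_upwards [hCb] with y hy h2
  have := hy h2
  rwa [abs_of_nonneg (norm_nonneg _)] at this

lemma CylStat.radK_nonneg (hk : Kern k k' K) {t : ℝ} (ht : 0 < t) :
    0 ≤ radK m T z k P ν t := by
  unfold radK
  refine mul_nonneg (zpow_nonneg ht.le _) (integral_nonneg fun y => ?_)
  exact mul_nonneg (hk.nonneg _) (rad_nonneg y)

lemma CylStat.integrable_theta (hC : CylStat m T G h ν P) (hk : Kern k k' K) {F : E → ℝ}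
    (hF : Continuous F) {t R : ℝ} (ht : 0 < t) (htR : t < R) (hG : BallIn T G z R) :
    Integrable (fun y => k (bsq T z y / t ^ 2) * (F y * theta T P z y)) ν := by
  haveI := hC.fin
  have ham : AEStronglyMeasurable (bsq T z) ν := (continuous_bsq T z).aestronglyMeasurable
  obtain ⟨C, hCb⟩ := CylStat.ball_bound hC hF (ht.trans htR) hG
  refine integrable_kernel hk.pk.continuous hk.pk.zero ham (bsq_nonneg T z)
      (hF.aestronglyMeasurable.mul (aesm_theta hC.meas)) (C := |C|) (R := R) ?_ ht htR.le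
  filter_upwards [hCb, (CylStat.plane hC).theta_mem (T := T) (z := z)] with y h1 h2 h3
  show |F y * theta T P z y| ≤ |C|
  rw [abs_mul, abs_of_nonneg h2.1]
  calc |F y| * theta T P z y ≤ |C| * 1 :=
        mul_le_mul ((h1 h3).trans (le_abs_self _)) h2.2 h2.1 (abs_nonneg _)
    _ = |C| := mul_one _

/-- for `|∇F|² ≤ 2 F` (distance squared and its concave caps): `g_F² ≤ 2 H^θ_F b` -/
theorem CylStat.cs_two_theta (hC : CylStat m T G h ν P) (hk : Kern k k' K) {F : E → ℝ}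
    (hF : ContDiff ℝ 2 F) (hFT : ∀ y, T.starProjection (grad F y) = 0)
    {t R : ℝ} (ht : 0 < t) (htR : t < R) (hG : BallIn T G z R)
    (h2F : ∀ᵐ y ∂ν, bsq T z y < R ^ 2 → ‖grad F y‖ ^ 2 ≤ 2 * F y) :
    hessK m T z K F P ν t ^ 2 ≤ 2 * hgtTh m T z k F P ν t * radK m T z k P ν t := by
  haveI := hC.fin
  refine (CylStat.cs_theta hC hk hF hFT ht htR hG).trans ?_
  refine mul_le_mul_of_nonneg_right ?_ (CylStat.radK_nonneg hk ht)
  unfold hgtTh
  have i1 := CylStat.integrable_theta hC hk hF.continuous ht htR hG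
  have e1 : 2 * (t ^ (-(m : ℤ)) * ∫ y, k (bsq T z y / t ^ 2) * (F y * theta T P z y) ∂ν)
      = t ^ (-(m : ℤ)) * ∫ y, 2 * (k (bsq T z y / t ^ 2) * (F y * theta T P z y)) ∂ν := by
    rw [integral_const_mul]; ring
  rw [e1]
  refine mul_le_mul_of_nonneg_left ?_ (zpow_nonneg ht.le _)
  have hth := (CylStat.plane hC).theta_mem (T := T) (z := z)
  refine integral_mono_of_nonneg ?_ (i1.const_mul 2) ?_
  · filter_upwards [hth] with y hy
    exact mul_nonneg (hk.nonneg _) (mul_nonneg (sq_nonneg _) hy.1)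
  filter_upwards [h2F, hth] with y hy h0
  by_cases hlt : bsq T z y < R ^ 2
  · have h1 := mul_le_mul_of_nonneg_right (hy hlt) h0.1
    have h3 := mul_le_mul_of_nonneg_left h1 (hk.nonneg (bsq T z y / t ^ 2))
    linarith
  · have h3 : k (bsq T z y / t ^ 2) = 0 := by
      refine hk.pk.zero _ ?_
      rw [one_le_div (by positivity)]
      have : t ^ 2 ≤ R ^ 2 := by gcongr
      linarith [not_lt.1 hlt]
    simp [h3]

/-- **The error has the good sign up to `(4 m S/t²) b`.** -/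
theorem CylStat.neg_errTh_le (hC : CylStat m T G h ν P) (hk : Kern k k' K)
    (hk0 : ∀ s, s ≤ 1 / 4 → k s = 0) {F : E → ℝ} (hF : Continuous F) {t R S : ℝ} (ht : 0 < t)
    (htR : t < R) (hG : BallIn T G z R) (hF0 : ∀ᵐ y ∂ν, bsq T z y < t ^ 2 → 0 ≤ F y)
    (hFS : ∀ᵐ y ∂ν, bsq T z y < t ^ 2 → F y ≤ S) (hS : 0 ≤ S) :
    -errTh m T z k F P ν t ≤ 4 * m * S / t ^ 2 * radK m T z k P ν t := by
  haveI := hC.fin
  have ham : AEStronglyMeasurable (bsq T z) ν := (continuous_bsq T z).aestronglyMeasurable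
  obtain ⟨C, hCb⟩ := CylStat.ball_bound hC hF (ht.trans htR) hG
  have hpl := CylStat.plane hC
  have irad : Integrable (fun y => k (bsq T z y / t ^ 2) * rad T P z y) ν := by
    refine integrable_kernel hk.pk.continuous hk.pk.zero ham (bsq_nonneg T z)
      (aesm_rad hC.meas) (C := R ^ 2) (R := R) ?_ ht htR.le
    filter_upwards [hpl.rad_le (T := T) (z := z)] with y h1 h2
    rw [abs_of_nonneg (rad_nonneg y)]
    exact h1.trans h2.le
  have i2 : Integrable (fun y => k (bsq T z y / t ^ 2)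
      * (F y * (tilt T P y - m * (rad T P z y / bsq T z y)))) ν := by
    refine integrable_kernel hk.pk.continuous hk.pk.zero ham (bsq_nonneg T z)
      (hF.aestronglyMeasurable.mul ((aesm_tilt hC.meas).sub ((aesm_ratio hC.meas).const_mul _)))
      (C := |C| * (2 * (Module.finrank ℝ E) + m)) (R := R) ?_ ht htR.le
    filter_upwards [hCb, hpl.abs_tilt_le (T := T), hpl.ratio_mem (T := T) (z := z)]
      with y h1 h2 h3 h4
    show |F y * (tilt T P y - m * (rad T P z y / bsq T z y))| ≤ _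
    rw [abs_mul]
    refine mul_le_mul ((h1 h4).trans (le_abs_self _)) ?_ (abs_nonneg _) (abs_nonneg _)
    refine (abs_sub _ _).trans ?_
    refine add_le_add h2 ?_
    rw [abs_of_nonneg (mul_nonneg (Nat.cast_nonneg _) h3.1)]
    calc (m : ℝ) * (rad T P z y / bsq T z y) ≤ m * 1 := by
          gcongr; exact h3.2
      _ = m := mul_one _
  unfold errTh radK
  have e1 : 4 * (m : ℝ) * S / t ^ 2 * (t ^ (-(m : ℤ)) * ∫ y, k (bsq T z y / t ^ 2)
      * rad T P z y ∂ν) = t ^ (-(m : ℤ)) * ∫ y, 4 * (m : ℝ) * S / t ^ 2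
        * (k (bsq T z y / t ^ 2) * rad T P z y) ∂ν := by
    rw [integral_const_mul]; ring
  rw [e1, ← mul_neg, ← integral_neg]
  refine mul_le_mul_of_nonneg_left ?_ (zpow_nonneg ht.le _)
  refine integral_mono_ae i2.neg (irad.const_mul _) ?_
  filter_upwards [hF0, hFS, CylStat.tilt_nonneg hC] with y h1 h2 h3
  show -(k (bsq T z y / t ^ 2) * (F y * (tilt T P y - m * (rad T P z y / bsq T z y))))
    ≤ 4 * (m : ℝ) * S / t ^ 2 * (k (bsq T z y / t ^ 2) * rad T P z y)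
  have hk1 := hk.nonneg (bsq T z y / t ^ 2)
  have hr := rad_nonneg (T := T) (P := P) (z := z) y
  by_cases hlt : bsq T z y < t ^ 2
  · by_cases hq : bsq T z y / t ^ 2 ≤ 1 / 4
    · rw [hk0 _ hq]; simp
    · rw [not_le] at hq
      have hb : t ^ 2 / 4 < bsq T z y := by
        rw [lt_div_iff₀ (by positivity)] at hq
        linarith
      have hbp : 0 < bsq T z y := lt_of_le_of_lt (by positivity) hb
      have hF1 := h1 hlt
      have hF2 := h2 hlt
      have h5 : rad T P z y / bsq T z y ≤ 4 / t ^ 2 * rad T P z y := by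
        rw [div_le_iff₀ hbp]
        have h6 : 1 ≤ 4 / t ^ 2 * bsq T z y := by
          rw [div_mul_eq_mul_div, one_le_div (by positivity)]
          linarith
        nlinarith
      have h7 : -(k (bsq T z y / t ^ 2) * (F y * (tilt T P y - m * (rad T P z y / bsq T z y))))
          = k (bsq T z y / t ^ 2) * (F y * (m * (rad T P z y / bsq T z y) - tilt T P y)) := by
        ring
      rw [h7]
      have h8 : F y * (m * (rad T P z y / bsq T z y) - tilt T P y)
          ≤ S * (m * (4 / t ^ 2 * rad T P z y)) := by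
        have h9 : m * (rad T P z y / bsq T z y) - tilt T P y
            ≤ m * (4 / t ^ 2 * rad T P z y) := by
          have : (m : ℝ) * (rad T P z y / bsq T z y) ≤ m * (4 / t ^ 2 * rad T P z y) := by
            gcongr
          linarith
        have h10 : 0 ≤ (m : ℝ) * (4 / t ^ 2 * rad T P z y) := by positivity
        calc F y * (m * (rad T P z y / bsq T z y) - tilt T P y)
            ≤ F y * (m * (4 / t ^ 2 * rad T P z y)) := by gcongr
          _ ≤ S * (m * (4 / t ^ 2 * rad T P z y)) := by gcongr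
      calc k (bsq T z y / t ^ 2) * (F y * (m * (rad T P z y / bsq T z y) - tilt T P y))
          ≤ k (bsq T z y / t ^ 2) * (S * (m * (4 / t ^ 2 * rad T P z y))) := by gcongr
        _ = _ := by ring
  · have h4 : k (bsq T z y / t ^ 2) = 0 := by
      refine hk.pk.zero _ ?_
      rw [one_le_div (by positivity)]
      exact not_lt.1 hlt
    rw [h4]; simp

/-- **Differential inequality**: `t (H^θ_F)' ≤ g_F + (4 m S/t²) b`. -/
theorem CylStat.height_theta_deriv_le (hC : CylStat m T G h ν P) (hk : Kern k k' K)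
    (hk0 : ∀ s, s ≤ 1 / 4 → k s = 0) {F : E → ℝ} (hF : ContDiff ℝ 2 F) {t R S : ℝ} (ht : 0 < t)
    (htR : t < R) (hG : BallIn T G z R) (hF0 : ∀ᵐ y ∂ν, bsq T z y < t ^ 2 → 0 ≤ F y)
    (hFS : ∀ᵐ y ∂ν, bsq T z y < t ^ 2 → F y ≤ S) (hS : 0 ≤ S) :
    ∃ D, HasDerivAt (hgtTh m T z k F P ν) D t ∧
      t * D ≤ hessK m T z K F P ν t + 4 * m * S / t ^ 2 * radK m T z k P ν t := by
  refine ⟨_, CylStat.height_ode_theta hC hk hF ht htR hG, ?_⟩
  have h1 := CylStat.neg_errTh_le hC hk hk0 hF.continuous ht htR hG hF0 hFS hS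
  rw [← mul_assoc, mul_inv_cancel₀ ht.ne', one_mul]
  linarith

/-! ### the frequency inequality -/

/-- `a(t) = 2 t² (M(t) - c) = g(t) + λ(t)` -/
noncomputable def aK (m : ℕ) (T : Submodule ℝ E) (z : E) (K : ℝ → ℝ) (ν : Measure E) (c : ℝ)
    (t : ℝ) : ℝ := 2 * t ^ 2 * (massK m T z K ν t - c)

/-- `t a' = 2 λ + 2 b` with `λ = a - g`. -/
theorem CylStat.a_ode (hC : CylStat m T G h ν P) (hk : Kern k k' K) {t : ℝ} (ht : 0 < t)
    (hG : BallIn T G z t) (c : ℝ) :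
    HasDerivAt (aK m T z K ν c)
      (t⁻¹ * (2 * (aK m T z K ν c t - tiltK m T z K P ν t) + 2 * radK m T z k P ν t)) t := by
  have h1 := CylStat.mass_ode hC hk ht hG
  have h2 : HasDerivAt (fun t : ℝ => 2 * t ^ 2) (2 * (2 * t)) t := by
    have := (hasDerivAt_pow 2 t).const_mul 2
    refine this.congr_deriv ?_
    simp
  have h3 := h2.mul (h1.sub_const c)
  refine HasDerivAt.congr_deriv (f := aK m T z K ν c) h3 ?_
  unfold aK
  field_simp
  ring

/-- algebra behind the frequency inequality -/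
lemma freq_alg {a H b lam g gF f ε : ℝ} (ha : a = g + lam) (ha0 : 0 < a) (hH : 0 < H)
    (haH : a ≤ H) (hg : 0 ≤ g) (hb : 0 ≤ b) (hgF : gF ≤ g) (hgF' : (1 - f) * g ≤ gF)
    (hf0 : 0 ≤ f) (hf1 : f ≤ 1) (hε0 : 0 ≤ ε) (hε1 : ε ≤ 1) (hcs : gF ^ 2 ≤ H * b) :
    2 * lam / a * (1 - g / H) - 2 * g ^ 2 / (H * a) * (2 * f + ε)
      ≤ (2 * lam + 2 * b) / a - (2 * gF + 2 * ε * b) / H := by
  have h1 : ε * b / H ≤ ε * b / a := by
    gcongr
  have h2 : gF ^ 2 / H ≤ b := by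
    rw [div_le_iff₀ hH]; linarith
  have h3 : ((1 - f) * g) ^ 2 ≤ gF ^ 2 := by
    have : 0 ≤ (1 - f) * g := mul_nonneg (by linarith) hg
    gcongr
  have h4 : (1 - ε) * (((1 - f) * g) ^ 2 / H) ≤ (1 - ε) * b := by
    refine mul_le_mul_of_nonneg_left ?_ (by linarith)
    refine le_trans ?_ h2
    gcongr
  have h5 : (2 * lam + 2 * b) / a - (2 * gF + 2 * ε * b) / H
      ≥ (2 * lam + 2 * ((1 - ε) * b)) / a - 2 * g / H := by
    have e1 : (2 * gF + 2 * ε * b) / H = 2 * gF / H + 2 * (ε * b / H) := by ring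
    have e2 : (2 * lam + 2 * ((1 - ε) * b)) / a = (2 * lam + 2 * b) / a - 2 * (ε * b / a) := by
      ring
    have e3 : 2 * gF / H ≤ 2 * g / H := by gcongr
    rw [e1, e2]
    linarith
  have h6 : (2 * lam + 2 * ((1 - ε) * b)) / a
      ≥ (2 * lam + 2 * ((1 - ε) * (((1 - f) * g) ^ 2 / H))) / a := by
    gcongr
  refine le_trans ?_ (le_trans (sub_le_sub_right h6 _) h5)
  have h7 : (2 * lam + 2 * ((1 - ε) * (((1 - f) * g) ^ 2 / H))) / a - 2 * g / H
      - (2 * lam / a * (1 - g / H) - 2 * g ^ 2 / (H * a) * (2 * f + ε))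
      = 2 * g ^ 2 / (H * a) * ((1 - ε) * (1 - f) ^ 2 - 1 + (2 * f + ε)) := by
    rw [ha]
    have : g + lam ≠ 0 := by rw [← ha]; exact ha0.ne'
    field_simp
    ring
  have h8 : 0 ≤ (1 - ε) * (1 - f) ^ 2 - 1 + (2 * f + ε) := by nlinarith [mul_nonneg hf0 hε0]
  have h9 : 0 ≤ 2 * g ^ 2 / (H * a) * ((1 - ε) * (1 - f) ^ 2 - 1 + (2 * f + ε)) := by positivity
  linarith

/-- **Frequency inequality with absorbed quartic error.**  Let `Ĥ = 2 H^θ_F`, `a = g + λ`,
`(1 - f) g ≤ g_F ≤ g`, `ε = 4 m S/t² ≤ 1`, `0 < a ≤ Ĥ`.  Then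
`t (log (a/Ĥ))' ≥ (2 λ/a)(1 - g/Ĥ) - (2 g²/(Ĥ a)) (2 f + ε)`. -/
theorem CylStat.freq_deriv_ge (hC : CylStat m T G h ν P) (hk : Kern k k' K)
    (hk0 : ∀ s, s ≤ 1 / 4 → k s = 0) {F : E → ℝ} (hF : ContDiff ℝ 2 F)
    (hFT : ∀ y, T.starProjection (grad F y) = 0) {t R S f c : ℝ} (ht : 0 < t)
    (htR : t < R) (hG : BallIn T G z R) (hF0 : ∀ᵐ y ∂ν, bsq T z y < t ^ 2 → 0 ≤ F y)
    (hFS : ∀ᵐ y ∂ν, bsq T z y < t ^ 2 → F y ≤ S) (hS : 0 ≤ S)
    (h2F : ∀ᵐ y ∂ν, bsq T z y < R ^ 2 → ‖grad F y‖ ^ 2 ≤ 2 * F y)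
    (hf0 : 0 ≤ f) (hf1 : f ≤ 1) (hε : 4 * m * S / t ^ 2 ≤ 1)
    (hgF : hessK m T z K F P ν t ≤ tiltK m T z K P ν t)
    (hgF' : (1 - f) * tiltK m T z K P ν t ≤ hessK m T z K F P ν t)
    (ha0 : 0 < aK m T z K ν c t) (haH : aK m T z K ν c t ≤ 2 * hgtTh m T z k F P ν t)
    (hg : 0 ≤ tiltK m T z K P ν t) :
    ∃ D, HasDerivAt (fun t => Real.log (aK m T z K ν c t / (2 * hgtTh m T z k F P ν t))) D t ∧
      2 * (aK m T z K ν c t - tiltK m T z K P ν t) / aK m T z K ν c t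
          * (1 - tiltK m T z K P ν t / (2 * hgtTh m T z k F P ν t))
        - 2 * tiltK m T z K P ν t ^ 2 / (2 * hgtTh m T z k F P ν t * aK m T z K ν c t)
          * (2 * f + 4 * m * S / t ^ 2) ≤ t * D := by
  obtain ⟨D₁, hD₁, hD₁'⟩ := CylStat.height_theta_deriv_le hC hk hk0 hF ht htR hG hF0 hFS hS
  have hD₂ := CylStat.a_ode hC hk ht (fun x hx hx2 => hG x hx (hx2.trans htR.le)) c
  have hH : 0 < 2 * hgtTh m T z k F P ν t := ha0.trans_le haH
  have hb := CylStat.radK_nonneg (m := m) (T := T) (z := z) (P := P) (ν := ν) hk ht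
  have hcs := CylStat.cs_two_theta hC hk hF hFT ht htR hG h2F
  have halg := freq_alg (a := aK m T z K ν c t) (H := 2 * hgtTh m T z k F P ν t)
    (b := radK m T z k P ν t) (lam := aK m T z K ν c t - tiltK m T z K P ν t)
    (g := tiltK m T z K P ν t) (gF := hessK m T z K F P ν t) (f := f)
    (ε := 4 * m * S / t ^ 2) (by ring) ha0 hH haH hg hb hgF hgF' hf0 hf1 (by positivity) hε hcs
  have h1 : HasDerivAt (fun t => aK m T z K ν c t / (2 * hgtTh m T z k F P ν t))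
      ((t⁻¹ * (2 * (aK m T z K ν c t - tiltK m T z K P ν t) + 2 * radK m T z k P ν t)
          * (2 * hgtTh m T z k F P ν t) - aK m T z K ν c t * (2 * D₁))
        / (2 * hgtTh m T z k F P ν t) ^ 2) t := hD₂.div (hD₁.const_mul 2) hH.ne'
  have h2 := HasDerivAt.log h1 (div_pos ha0 hH).ne'
  refine ⟨_, h2, halg.trans ?_⟩
  have hne : hgtTh m T z k F P ν t ≠ 0 := by
    intro h0; rw [h0] at hH; simp at hH
  have hae : aK m T z K ν c t ≠ 0 := ha0.ne'
  have e1 : t * ((t⁻¹ * (2 * (aK m T z K ν c t - tiltK m T z K P ν t) + 2 * radK m T z k P ν t)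
          * (2 * hgtTh m T z k F P ν t) - aK m T z K ν c t * (2 * D₁))
        / (2 * hgtTh m T z k F P ν t) ^ 2
        / (aK m T z K ν c t / (2 * hgtTh m T z k F P ν t)))
      = (2 * (aK m T z K ν c t - tiltK m T z K P ν t) + 2 * radK m T z k P ν t)
          / aK m T z K ν c t - 2 * (t * D₁) / (2 * hgtTh m T z k F P ν t) := by
    field_simp
    try ring
  rw [e1]
  have e2 : 2 * (t * D₁) / (2 * hgtTh m T z k F P ν t)
      ≤ (2 * hessK m T z K F P ν t + 2 * (4 * m * S / t ^ 2) * radK m T z k P ν t)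
        / (2 * hgtTh m T z k F P ν t) := by
    gcongr
    linarith
  linarith

end Vale.Agent.P214.ODE
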