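import Vale.Agent.P214.FV.Basic

/-!
# P214, block ODE: derivatives of kernel integrals

`Profile ψ ψ'`: a `C^1` profile on the line which vanishes on `[1, ∞)`, with derivative `ψ'`.
`hasDerivAt_kernel`: derivative in `t` of `∫ ψ (a y / t^2) w y dν`.
-/

open Set Filter Topology MeasureTheory Metric
open scoped RealInnerProductSpace

set_option linter.all false

namespace Vale.Agent.P214.ODE

/-- a `C^1` profile on the line vanishing on `[1, ∞)`, with derivative `ψ'` -/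
structure Profile (ψ ψ' : ℝ → ℝ) : Prop where
  der : ∀ s, HasDerivAt ψ (ψ' s) s
  cont : Continuous ψ'
  zero : ∀ s, 1 ≤ s → ψ s = 0

namespace Profile

variable {ψ ψ' : ℝ → ℝ}

lemma continuous (h : Profile ψ ψ') : Continuous ψ :=
  continuous_iff_continuousAt.2 fun s => (h.der s).continuousAt

lemma contDiff (h : Profile ψ ψ') : ContDiff ℝ 1 ψ := by
  rw [contDiff_one_iff_deriv]
  refine ⟨fun s => (h.der s).differentiableAt, ?_⟩
  have : deriv ψ = ψ' := funext fun s => (h.der s).deriv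
  rw [this]; exact h.cont

lemma zero' (h : Profile ψ ψ') {s : ℝ} (hs : 1 ≤ s) : ψ' s = 0 := by
  -- for s > 1 the function is locally constant; at 1 use continuity
  have h1 : ∀ s, 1 < s → ψ' s = 0 := by
    intro s hs
    have h2 : ψ =ᶠ[𝓝 s] fun _ => 0 := by
      filter_upwards [Ioi_mem_nhds hs] with u hu
      exact h.zero u (le_of_lt hu)
    have h3 : HasDerivAt (fun _ : ℝ => (0:ℝ)) (ψ' s) s := (h.der s).congr_of_eventuallyEq h2.symm
    exact h3.unique (hasDerivAt_const s 0)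
  rcases hs.lt_or_eq with hs | hs
  · exact h1 s hs
  · subst hs
    have h4 : Tendsto ψ' (𝓝[>] (1:ℝ)) (𝓝 (ψ' 1)) := h.cont.continuousAt.tendsto.mono_left
      nhdsWithin_le_nhds
    have h5 : Tendsto ψ' (𝓝[>] (1:ℝ)) (𝓝 0) := by
      refine tendsto_const_nhds.congr' ?_
      filter_upwards [self_mem_nhdsWithin] with u hu
      exact (h1 u hu).symm
    exact tendsto_nhds_unique h4 h5

lemma exists_bound (h : Profile ψ ψ') : ∃ C, 0 ≤ C ∧ ∀ s, 0 ≤ s → |ψ s| ≤ C ∧ |ψ' s| ≤ C := by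
  obtain ⟨C₁, hC₁⟩ := (isCompact_Icc (a := (0:ℝ)) (b := 1)).exists_bound_of_continuousOn
    h.continuous.continuousOn
  obtain ⟨C₂, hC₂⟩ := (isCompact_Icc (a := (0:ℝ)) (b := 1)).exists_bound_of_continuousOn
    h.cont.continuousOn
  refine ⟨max (max C₁ C₂) 0, le_max_right _ _, fun s hs => ?_⟩
  by_cases h1 : s ≤ 1
  · have ha := hC₁ s ⟨hs, h1⟩
    have hb := hC₂ s ⟨hs, h1⟩
    rw [Real.norm_eq_abs] at ha hb
    exact ⟨ha.trans ((le_max_left _ _).trans (le_max_left _ _)),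
      hb.trans ((le_max_right _ _).trans (le_max_left _ _))⟩
  · have h2 : 1 ≤ s := (not_le.1 h1).le
    rw [h.zero s h2, h.zero' h2]
    simp

end Profile

variable {α : Type*} [MeasurableSpace α] {ν : Measure α}

/-- integrability of `ψ (a / t^2) w` -/
lemma integrable_kernel [IsFiniteMeasure ν] {ψ : ℝ → ℝ} (hc : Continuous ψ)
    (hz : ∀ s, 1 ≤ s → ψ s = 0)
    {a w : α → ℝ} (ha : AEStronglyMeasurable a ν) (ha0 : ∀ y, 0 ≤ a y)
    (hw : AEStronglyMeasurable w ν) {R C t : ℝ} (hb : ∀ᵐ y ∂ν, a y < R ^ 2 → |w y| ≤ C)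
    (ht : 0 < t) (htR : t ≤ R) :
    Integrable (fun y => ψ (a y / t ^ 2) * w y) ν := by
  obtain ⟨C₁, hC₁⟩ := (isCompact_Icc (a := (0:ℝ)) (b := 1)).exists_bound_of_continuousOn
    hc.continuousOn
  have hC₁0 : 0 ≤ C₁ := (norm_nonneg _).trans (hC₁ 0 ⟨le_rfl, zero_le_one⟩)
  refine Integrable.mono' (integrable_const (C₁ * |C|)) ?_ ?_
  · exact (hc.comp_aestronglyMeasurable (by
      simp only [div_eq_mul_inv]
      exact ha.mul_const _)).mul hw
  · filter_upwards [hb] with y hy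
    by_cases h : 1 ≤ a y / t ^ 2
    · rw [hz _ h, zero_mul, norm_zero]; positivity
    · rw [not_le, div_lt_one (by positivity)] at h
      have h1 : a y < R ^ 2 := h.trans_le (by gcongr)
      have h2 := hy h1
      rw [norm_mul]
      have h3 := hC₁ (a y / t ^ 2) ⟨div_nonneg (ha0 y) (by positivity), by
        rw [div_le_one (by positivity)]; exact h.le⟩
      have h4 : ‖w y‖ ≤ |C| := by rw [Real.norm_eq_abs]; exact h2.trans (le_abs_self _)
      exact mul_le_mul h3 h4 (norm_nonneg _) hC₁0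

/-- derivative in `t` of `∫ ψ (a y / t^2) w y dν` -/
lemma hasDerivAt_kernel [IsFiniteMeasure ν] {ψ ψ' : ℝ → ℝ} (hψ : Profile ψ ψ')
    {a w : α → ℝ} (ha : AEStronglyMeasurable a ν) (ha0 : ∀ y, 0 ≤ a y)
    (hw : AEStronglyMeasurable w ν) {R C t : ℝ} (hb : ∀ᵐ y ∂ν, a y < R ^ 2 → |w y| ≤ C)
    (ht : 0 < t) (htR : t < R) :
    HasDerivAt (fun t => ∫ y, ψ (a y / t ^ 2) * w y ∂ν)
      (∫ y, ψ' (a y / t ^ 2) * (-(2 * a y / t ^ 3)) * w y ∂ν) t := by
  obtain ⟨C₁, hC₁0, hC₁⟩ := hψ.exists_bound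
  have hs : Ioo (t / 2) R ∈ 𝓝 t := Ioo_mem_nhds (by linarith) htR
  have hmeas : ∀ (φ : ℝ → ℝ), Continuous φ → ∀ s : ℝ,
      AEStronglyMeasurable (fun y => φ (a y / s ^ 2)) ν := by
    intro φ hφ s
    refine hφ.comp_aestronglyMeasurable ?_
    simp only [div_eq_mul_inv]
    exact ha.mul_const _
  have key := hasDerivAt_integral_of_dominated_loc_of_deriv_le (μ := ν) (𝕜 := ℝ)
    (F := fun s y => ψ (a y / s ^ 2) * w y)
    (F' := fun s y => ψ' (a y / s ^ 2) * (-(2 * a y / s ^ 3)) * w y) (x₀ := t)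
    (s := Ioo (t / 2) R) (bound := fun _ => C₁ * (2 / (t / 2)) * |C|)
    hs ?_ ?_ ?_ ?_ ?_ ?_
  · exact key.2
  · exact Eventually.of_forall fun s => (hmeas ψ hψ.continuous s).mul hw
  · exact integrable_kernel hψ.continuous hψ.zero ha ha0 hw hb ht htR.le
  · refine ((hmeas ψ' hψ.cont t).mul ?_).mul hw
    refine AEStronglyMeasurable.neg ?_
    simp only [div_eq_mul_inv]
    exact (ha.const_mul 2).mul_const _
  · filter_upwards [hb] with y hy s hs
    have hs0 : 0 < s := by linarith [hs.1]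
    by_cases h : 1 ≤ a y / s ^ 2
    · rw [hψ.zero' h, zero_mul, zero_mul, norm_zero]
      positivity
    · rw [not_le, div_lt_one (by positivity)] at h
      have h1 : a y < R ^ 2 := h.trans_le (by
        have := hs.2.le
        gcongr)
      have h2 := hy h1
      rw [norm_mul, norm_mul, norm_neg]
      have h3 := (hC₁ (a y / s ^ 2) (div_nonneg (ha0 y) (by positivity))).2
      have h4 : ‖w y‖ ≤ |C| := by rw [Real.norm_eq_abs]; exact h2.trans (le_abs_self _)
      have h5 : ‖2 * a y / s ^ 3‖ ≤ 2 / (t / 2) := by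
        have ha1 := ha0 y
        rw [Real.norm_of_nonneg (by positivity)]
        calc 2 * a y / s ^ 3 ≤ 2 * s ^ 2 / s ^ 3 := by gcongr
          _ = 2 / s := by field_simp
          _ ≤ 2 / (t / 2) := by
            have := hs.1.le
            gcongr
      have h6 : ‖ψ' (a y / s ^ 2)‖ ≤ C₁ := by rw [Real.norm_eq_abs]; exact h3
      calc ‖ψ' (a y / s ^ 2)‖ * ‖2 * a y / s ^ 3‖ * ‖w y‖
          ≤ C₁ * (2 / (t / 2)) * |C| := by gcongr
        _ = _ := rfl
  · exact integrable_const _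
  · refine Eventually.of_forall fun y s hs => ?_
    have hs0 : 0 < s := by linarith [hs.1]
    have h1 : HasDerivAt (fun s : ℝ => a y / s ^ 2) (-(2 * a y / s ^ 3)) s := by
      have h := (hasDerivAt_pow 2 s).inv (by positivity)
      have h' := h.const_mul (a y)
      refine (h'.congr_of_eventuallyEq ?_).congr_deriv ?_
      · exact Eventually.of_forall fun z => by simp [div_eq_mul_inv]
      · simp; field_simp
    have h2 := (hψ.der (a y / s ^ 2)).comp s h1
    exact h2.mul_const (w y)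

/-- derivative in `t` of `t^{-m} ∫ ψ (a y / t^2) w y dν`, multiplied by `t` -/
lemma hasDerivAt_scaled [IsFiniteMeasure ν] {ψ ψ' : ℝ → ℝ} (hψ : Profile ψ ψ')
    {a w : α → ℝ} (ha : AEStronglyMeasurable a ν) (ha0 : ∀ y, 0 ≤ a y)
    (hw : AEStronglyMeasurable w ν) {R C t : ℝ} (hb : ∀ᵐ y ∂ν, a y < R ^ 2 → |w y| ≤ C)
    (ht : 0 < t) (htR : t < R) (j : ℤ) :
    HasDerivAt (fun t => t ^ j * ∫ y, ψ (a y / t ^ 2) * w y ∂ν)
      (t⁻¹ * (t ^ j * ∫ y, ((j : ℝ) * ψ (a y / t ^ 2)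
        - 2 * (a y / t ^ 2) * ψ' (a y / t ^ 2)) * w y ∂ν)) t := by
  have h1 := hasDerivAt_kernel hψ ha ha0 hw hb ht htR
  have h2 : HasDerivAt (fun t : ℝ => t ^ j) ((j : ℝ) * t ^ (j - 1)) t :=
    hasDerivAt_zpow j t (Or.inl ht.ne')
  refine (h2.mul h1).congr_deriv ?_
  have hi1 : Integrable (fun y => ψ (a y / t ^ 2) * w y) ν :=
    integrable_kernel hψ.continuous hψ.zero ha ha0 hw hb ht htR.le
  have hz' : ∀ s, 1 ≤ s → (fun s => s * ψ' s) s = 0 := fun s hs => by
    simp [hψ.zero' hs]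
  have hi2 : Integrable (fun y => ((a y / t ^ 2) * ψ' (a y / t ^ 2)) * w y) ν :=
    integrable_kernel (ψ := fun s => s * ψ' s) (continuous_id.mul hψ.cont) hz' ha ha0 hw hb ht
      htR.le
  have h3 : ∫ y, ((j : ℝ) * ψ (a y / t ^ 2) - 2 * (a y / t ^ 2) * ψ' (a y / t ^ 2)) * w y ∂ν
      = (j : ℝ) * (∫ y, ψ (a y / t ^ 2) * w y ∂ν)
        - 2 * ∫ y, ((a y / t ^ 2) * ψ' (a y / t ^ 2)) * w y ∂ν := by
    rw [← integral_const_mul, ← integral_const_mul, ← integral_sub (hi1.const_mul _)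
      (hi2.const_mul _)]
    exact integral_congr_ae (Eventually.of_forall fun y => by ring)
  have h4 : ∫ y, ψ' (a y / t ^ 2) * (-(2 * a y / t ^ 3)) * w y ∂ν
      = -(2 / t) * ∫ y, ((a y / t ^ 2) * ψ' (a y / t ^ 2)) * w y ∂ν := by
    rw [← integral_const_mul]
    refine integral_congr_ae (Eventually.of_forall fun y => ?_)
    field_simp
  rw [h3, h4, zpow_sub_one₀ ht.ne']
  ring

end Vale.Agent.P214.ODE
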